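import Vale.Agent.P167.QN.DetDefs
import Vale.Agent.P167.Fjord.Left

/-!
# P167, general `q`, block Q-NF: left gates, the closed cluster along the interface is fresh
-/

set_option autoImplicit false
set_option linter.unusedVariables false
set_option linter.unusedSectionVars false

open Set Metric

namespace Vale.Agent.P167.QN

open Vale.Agent.P167.FK Vale.Agent.P167.FKA
open Vale.Agent.P145.FB (PStep)
open Vale.Agent.P167.H192 (cfg ed rf cfg_true isEdge_ahead)
open Vale.Agent.P167.H718 (Dq wE)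
open Vale.Agent.P167.H167.Q (mem_Bq)
open Vale.Agent.P167.E6 Vale.Agent.P167.E2 Vale.Agent.P167.Fjord
open Relation

variable {n : ℕ} {p : ZMod n → ℤ × ℤ} {S : Finset (ℤ × ℤ)} {k : ℕ} {A : Finset (Sym2 (ℤ × ℤ))}

/-! ### Dictionary -/

theorem odd_rf' (f : ℤ × ℤ) : Odd ((rf f).1 + (rf f).2) := Int.not_even_iff_odd.1 (H192.odd_rf f)

theorem odd_pstep {F : Set (ℤ × ℤ)} {u v : ℤ × ℤ} (h : PStep F u v) (hu : Odd (u.1 + u.2)) :
    Odd (v.1 + v.2) := by
  obtain ⟨h1, h2, -⟩ := h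
  rw [Int.odd_iff] at *
  omega

/-- A dual step is the crossing of the edge ahead of a dart. -/
theorem dartD_of_step {F : Set (ℤ × ℤ)} {u u' : ℤ × ℤ} (hu : Odd (u.1 + u.2)) (h : PStep F u u') :
    ∃ c : Medial, rf (fc c) = u ∧ rf (fc (rot c)) = u' ∧
      ahead c = ed (min u.1 u'.1, min u.2 u'.2) ∧ (min u.1 u'.1, min u.2 u'.2) ∈ F := by
  have hu' := odd_pstep h hu
  obtain ⟨h1, h2, h3⟩ := h
  set q : ℤ × ℤ := (min u.1 u'.1, min u.2 u'.2) with hq
  have h4 : PStep (op (cfg ({ed q}ᶜ : Set (Sym2 (ℤ × ℤ)))))ᶜ (rf (H192.rf' u)) (rf (H192.rf' u')) := by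
    rw [H192.rf_rf' (Int.not_even_iff_odd.2 hu), H192.rf_rf' (Int.not_even_iff_odd.2 hu')]
    refine ⟨h1, h2, fun h5 => ?_⟩
    rw [H192.mem_op_cfg] at h5
    exact h5 rfl
  obtain ⟨w, r, e1, e2, e3⟩ := H192.fStep_iff.1 h4
  refine ⟨(w, r), ?_, ?_, ?_, h3⟩
  · show rf (face w r) = u
    rw [e1, H192.rf_rf' (Int.not_even_iff_odd.2 hu)]
  · show rf (face w (r + 1)) = u'
    rw [e2, H192.rf_rf' (Int.not_even_iff_odd.2 hu')]
  · rw [Set.mem_compl_iff, not_not] at e3
    exact e3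

/-- The dual step across the edge ahead of a dart. -/
theorem step_rot {F : Set (ℤ × ℤ)} {c : Medial} (h : H192.sq (ahead c) ∈ F) :
    PStep F (rf (fc c)) (rf (fc (rot c))) := by
  have h1 : H192.fStep ({ahead c}ᶜ : Set (Sym2 (ℤ × ℤ))) (fc c) (fc (rot c)) :=
    ⟨c.1, c.2, rfl, rfl, fun h => h rfl⟩
  obtain ⟨h2, h3, h4⟩ := H192.fStep_iff.2 h1
  refine ⟨h2, h3, ?_⟩
  have h5 : ed (min (rf (fc c)).1 (rf (fc (rot c))).1, min (rf (fc c)).2 (rf (fc (rot c))).2) =
      ahead c := by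
    by_contra h6
    exact h4 (H192.mem_op_cfg.2 h6)
  rw [← h5, H192.sq_ed] at h
  exact h

/-- The opposite corner of a square. -/
theorem step_opp {v u : ℤ × ℤ} (h : Cor v u) :
    PStep {v} u (2 * v.1 + 1 - u.1, 2 * v.2 + 1 - u.2) ∧
      (min u.1 (2 * v.1 + 1 - u.1), min u.2 (2 * v.2 + 1 - u.2)) = v := by
  have h1 : (min u.1 (2 * v.1 + 1 - u.1), min u.2 (2 * v.2 + 1 - u.2)) = v := by
    obtain ⟨h2, h3⟩ := h
    ext
    · simp only; omega
    · simp only; omega
  refine ⟨⟨?_, ?_, h1⟩, h1⟩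
  · have := h.1
    simp only; omega
  · have := h.2
    simp only; omega

/-- A corner of a square is the face of a dart before the edge of the square. -/
theorem dart_of_cor {v u : ℤ × ℤ} (hu : Odd (u.1 + u.2)) (h : Cor v u) :
    ∃ c : Medial, rf (fc c) = u ∧ ahead c = ed v := by
  obtain ⟨h1, h2⟩ := step_opp h
  obtain ⟨c, h3, -, h4, -⟩ := dartD_of_step hu h1
  refine ⟨c, h3, ?_⟩
  rw [h4]
  exact congrArg ed h2

theorem cor_fc (c : Medial) : Cor (H192.sq (ahead c)) (rf (fc c)) := by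
  have h1 := step_rot (F := {H192.sq (ahead c)}) (c := c) rfl
  have h2 := (cor_of_step h1).1
  have h3 : (min (rf (fc c)).1 (rf (fc (rot c))).1, min (rf (fc c)).2 (rf (fc (rot c))).2) =
    H192.sq (ahead c) := h1.2.2
  rwa [h3] at h2

theorem nm_of_Bq {x v u : ℤ × ℤ} {r : ℤ} (hv : v ∈ Bq x r) (hc : Cor v u) : nm (u - x) ≤ r := by
  rw [mem_Bq] at hv
  rw [nm_abs]
  simp only [Cor, Prod.fst_sub, Prod.snd_sub] at *
  omega

theorem Bq_of_nm {x v u : ℤ × ℤ} {r : ℤ} (h : nm (u - x) < r) (hc : Cor v u) : v ∈ Bq x r := by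
  rw [mem_Bq]
  have h' : nm (u - x) ≤ r - 1 := by omega
  rw [nm_abs] at h'
  simp only [Cor, Prod.fst_sub, Prod.snd_sub] at *
  omega

theorem near_leQ {q x s : ℤ × ℤ} {r : ℤ} (h : nm (q - x) ≤ r) (h1 : s.1 = q.1 ∨ s.1 = q.1 + 1)
    (h2 : s.2 = q.2 ∨ s.2 = q.2 + 1) : nm (s - x) ≤ r + 1 := by
  simp only [nm, Prod.fst_sub, Prod.snd_sub, max_le_iff, abs_le] at h ⊢
  omega

theorem near_geQ {q x s : ℤ × ℤ} {R : ℤ} (h : R ≤ nm (q - x)) (h1 : s.1 = q.1 ∨ s.1 = q.1 + 1)
    (h2 : s.2 = q.2 ∨ s.2 = q.2 + 1) : R - 1 ≤ nm (s - x) := by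
  simp only [nm, Prod.fst_sub, Prod.snd_sub, le_max_iff, le_abs] at h ⊢
  omega

/-! ### The midpoint of a closed boundary edge is joined to the exit -/

section

variable {Z : Set ℂ} {E : Medial → Medial → Prop} {B P : Medial → Prop}

theorem em_outQ (h : Obs Z E B P) (hp : IsPolygon p) (hS : Encloses p S) (h0k : 0 < k)
    (hk : k + 1 < n) (hE : ∀ x y, E x y → ∀ e, FStep e x y → e ∈ edges S)
    (hB : ∀ d, B d → d ≠ ce p k ∧ ∀ j : ℕ, j < k → d.1 ≠ p (j : ZMod n)) {c : Medial}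
    (hE1 : ¬ E c (adv c)) (hE2 : ¬ E (adv c) c) (hc : ahead c ∉ wiredOpen p k A)
    (he : ahead c ∈ edges S) (hf : fc c ∉ S) :
    JoinedIn (O1 (S : Set (ℤ × ℤ)) \ Z) (em c) (cpt (5 / 16) (ce p k)) := by
  have hn : n ≠ 0 := by omega
  have h1 := h.jG (S := S) (c := c) he hE1 hE2
  refine h1.trans ?_
  obtain ⟨i, hi1, hi2⟩ := edge_ext hS he hf
  obtain ⟨l, hl, rfl⟩ := H174.nat_of_zmod hn i
  have hadv : (adv c).1 = p (((l : ℕ) : ZMod n) + 1) := hi2.symm
  have hc1 : c = (p (l : ZMod n), ro p (l : ZMod n) - 1) := by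
    have : c.2 + 1 = ro p (l : ZMod n) := by
      apply ro_unique hp
      rw [hi2, hi1]
    apply Prod.ext
    · exact hi1.symm
    · show c.2 = ro p (l : ZMod n) - 1
      rw [← this, fin4_2]
  have hadv' : adv c = (p (((l : ℕ) : ZMod n) + 1), ri p (((l : ℕ) : ZMod n) + 1)) := by
    rw [hc1, adv_ro hp]
  have hl' : l < k ∨ l + 1 = n := by
    by_contra hcon
    push Not at hcon
    apply hc
    refine Or.inr ⟨l, hcon.1, by omega, ?_⟩
    rw [hc1, ahead_ro hp]
  have key : ∀ j' : ℕ, ((l : ℕ) : ZMod n) + 1 = (j' : ZMod n) → j' < k →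
      JoinedIn (O1 (S : Set (ℤ × ℤ)) \ Z) (qo c) (cpt (5 / 16) (ce p k)) := by
    intro j' h2 h3
    have h4 := h.jD' (S := S) (c := c) he (fun hb => (hB _ hb).2 j' h3 (by rw [hadv, h2]))
    refine h4.trans (corr_free' h hp hS hE hB h3 (by rw [hadv, h2]) ?_)
    rw [fc_advI]
    exact hf
  rcases hl' with hl' | hl'
  · by_cases hlk : l + 1 < k
    · exact key (l + 1) (by push_cast; rfl) hlk
    · have e1 : ((l : ℕ) : ZMod n) + 1 = (k : ZMod n) := by
        have : k = l + 1 := by omega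
        rw [this]
        push_cast
        rfl
      have e2 : adv c = ce p k := by
        rw [hadv', e1]
        rfl
      have h4 := h.jD' (S := S) (c := c) he (fun hb => (hB _ hb).1 e2)
      rwa [e2] at h4
  · refine key 0 ?_ h0k
    have : ((l : ℕ) : ZMod n) + 1 = ((l + 1 : ℕ) : ZMod n) := by push_cast; rfl
    rw [this, hl', ZMod.natCast_self, Nat.cast_zero]

end

/-! ### The main argument -/

section

variable (hp : IsPolygon p) (hS : Encloses p S) (h0k : 0 < k) (hk : k + 1 < n)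
  (hA : A ⊆ edges S) {τ m w t : ℕ} {C : ℕ → Medial} (hτw : τ < w) (hwt : w ≤ t)
  (ht : t < len p k A) (hC : ∀ i ≤ m, ∀ j, w ≤ j → j ≤ t → C i ≠ run p k A j)
  (pre : Pre p k S A τ m C) {Z : Set ℂ}

include hp hS h0k hk hA hτw hwt ht hC pre in
theorem left_coreQ (hm : 0 < m) (last : ∃ e, VStep e (C (m - 1)) (C m)) {W : Prop}
    (hW : W → ∀ j : ℕ, j < k → (C m).1 ≠ p (j : ZMod n))
    (hcov : ∀ z ∈ Z, (∃ x y, EC p k A τ m C x y ∧ z ∈ Lseg x y) ∨
      (∃ d, (d = cs p ∨ (W ∧ d = C m)) ∧ z ∈ Bt d) ∨ ∃ d, d = run p k A τ ∧ z = cpt (1 / 4) d)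
    {Bx : Set (ℤ × ℤ)} (hBx : ∀ i ≤ m, H192.sq (ahead (C i)) ∈ Bx)
    (hN : ¬ JoinedIn (O1 (S : Set (ℤ × ℤ)) \ Z) (cpt (1 / 4) (run p k A t))
      (cpt (5 / 16) (ce p k))) :
    ∀ u, ReflTransGen (PStep {v | v ∉ Bx ∧ cfg (wiredOpen p k A) v = false})
      (rf (fc (run p k A w))) u →
    ∀ v, v ∉ Bx → cfg (wiredOpen p k A) v = false → Cor v u → v ∈ Dq S p k \ rdq p k A τ := by
  have hn : n ≠ 0 := by omega
  have hω := wired_sub (k := k) hp hS hA
  -- the last step
  have hlast : ∀ i < m, i + 1 < m ∨ (∃ e, VStep e (C i) (C (i + 1))) := by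
    intro i hi
    by_cases h1 : i + 1 < m
    · exact Or.inl h1
    · have h2 : i + 1 = m := by omega
      obtain ⟨e, he⟩ := last
      have h3 : m - 1 = i := by omega
      rw [h3, ← h2] at he
      exact Or.inr ⟨e, he⟩
  have hstep : ∀ x y, EC p k A τ m C x y → ∃ e, VStep e x y ∨ FStep e x y := by
    rintro x y (⟨l, hl, rfl, rfl⟩ | ⟨i, hi, rfl, rfl⟩)
    · rw [run_succ]
      rcases next_step (wiredOpen p k A) (run p k A l) with ⟨-, -, h4⟩ | ⟨-, -, h4⟩
      exacts [⟨_, Or.inr h4⟩, ⟨_, Or.inl h4⟩]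
    · rcases hlast i hi with h1 | ⟨e, he⟩
      · rcases pre.ok i h1 with ⟨e, -, he⟩ | ⟨e, -, he⟩
        exacts [⟨e, Or.inl he⟩, ⟨e, Or.inr he⟩]
      · exact ⟨e, Or.inl he⟩
  have h : Obs Z (EC p k A τ m C) (fun d => d = cs p ∨ (W ∧ d = C m))
      fun d => d = run p k A τ := ⟨hstep, hcov⟩
  have hE : ∀ x y, EC p k A τ m C x y → ∀ e, FStep e x y → e ∈ edges S := by
    rintro x y (⟨l, hl, rfl, rfl⟩ | ⟨i, hi, rfl, rfl⟩) e hF
    · rw [run_succ] at hF
      rcases next_step (wiredOpen p k A) (run p k A l) with ⟨h3, -, h4⟩ | ⟨-, -, h4⟩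
      · rw [FF_eq hF h4]
        exact hω h3
      · exact (not_VF h4 hF).elim
    · rcases hlast i hi with h1 | ⟨e', he⟩
      · rcases pre.ok i h1 with ⟨e', -, he⟩ | ⟨e', h5, he⟩
        · exact (not_VF he hF).elim
        · rw [FF_eq hF he]
          exact h5
      · exact (not_VF he hF).elim
  -- no step along a closed edge whose square is not in `Bx`
  have hEF : ∀ x y, EC p k A τ m C x y → ∀ e, FStep e x y → e ∉ wiredOpen p k A →
      H192.sq e ∉ Bx → False := by
    rintro x y (⟨l, hl, rfl, rfl⟩ | ⟨i, hi, rfl, rfl⟩) e hF hcl hsq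
    · rw [run_succ] at hF
      rcases next_step (wiredOpen p k A) (run p k A l) with ⟨h3, -, h4⟩ | ⟨-, -, h4⟩
      · rw [FF_eq hF h4] at hcl
        exact hcl h3
      · exact (not_VF h4 hF).elim
    · rcases hF with ⟨h1, -⟩ | ⟨h1, -⟩
      · rw [← h1] at hsq
        exact hsq (hBx i (by omega))
      · rw [← h1] at hsq
        exact hsq (hBx (i + 1) (by omega))
  have hne : ∀ j : ℕ, j < k → p (-1) ≠ p (j : ZMod n) := by
    intro j hj he
    have h1 := hp.2.1 he
    have h2 : ((n - 1 : ℕ) : ZMod n) = -1 := by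
      rw [Nat.cast_sub (by omega)]
      simp
    rw [← h2] at h1
    have := cast_inj hn (by omega) (by omega) h1
    omega
  have hB : ∀ d, (d = cs p ∨ (W ∧ d = C m)) →
      d ≠ ce p k ∧ ∀ j : ℕ, j < k → d.1 ≠ p (j : ZMod n) := by
    rintro d (rfl | ⟨hW', rfl⟩)
    · exact ⟨cs_ne_ce hp hk, hne⟩
    · exact ⟨pre.exit m le_rfl, hW hW'⟩
  have hF : ∀ x y e, EC p k A τ m C x y → FStep e x y →
      (∃ j < τ, x = run p k A j ∨ y = run p k A j) → e ∈ wiredOpen p k A := by
    rintro x y e (⟨l, hl, rfl, rfl⟩ | ⟨i, hi, rfl, rfl⟩) hF ⟨j, hj, hj'⟩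
    · rw [run_succ] at hF
      rcases next_step (wiredOpen p k A) (run p k A l) with ⟨h3, -, h4⟩ | ⟨-, -, h4⟩
      · rw [FF_eq hF h4]
        exact h3
      · exact (not_VF h4 hF).elim
    · exfalso
      rcases hlast i hi with h1 | ⟨e', he⟩
      · rcases hj' with hj' | hj'
        · rcases Nat.eq_zero_or_pos i with h2 | h2
          · rw [h2, pre.zero] at hj'
            have := run_inj hp hS (by omega) hA (by omega) (by omega) hj'
            omega
          · exact pre.fresh i h2 hi j hj.le hj'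
        · exact pre.fresh (i + 1) (by omega) h1 j hj.le hj'
      · exact not_VF he hF
  have hBw : ¬ (run p k A w = cs p ∨ (W ∧ run p k A w = C m)) := by
    rintro (h3 | ⟨-, h3⟩)
    · rw [← run_zero (p := p) (k := k) (A := A)] at h3
      have := run_inj hp hS (by omega) hA (by omega) (by omega) h3
      omega
    · exact hC m le_rfl w le_rfl hwt h3.symm
  have hPw : ¬ run p k A w = run p k A τ := by
    intro h3
    have := run_inj hp hS (by omega) hA (by omega) (by omega) h3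
    omega
  have hEw : ∀ x y, EC p k A τ m C x y → x ≠ run p k A w ∧ y ≠ run p k A w := fun x y hxy =>
    ec_ne hp hS hk hA hτw hwt ht hC hxy le_rfl hwt
  -- the face on the right is in the domain
  have hfw : fc (run p k A w) ∈ S := by
    by_contra hf
    apply hN
    apply run_joined hp hS hk hA hτw hwt ht hC h
    obtain ⟨l, hl, hl'⟩ := H174.ext_free hp hS h0k (by omega) hA (t := w) (by omega) (by omega) hf
    exact (h.jF (run_mem hp hS hA w) hEw hBw hPw).2.trans (corr_free' h hp hS hE hB hl hl' hf)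
  have hrt : JoinedIn (O1 (S : Set (ℤ × ℤ)) \ Z) (cpt (1 / 4) (run p k A t))
      (ctr (fc (run p k A w))) := by
    apply run_joined hp hS hk hA hτw hwt ht hC h
    have he : ahead (run p k A w) ∈ edges S := by
      apply (mem_edges ((run p k A w).2 + 1)).2
      right
      rw [fin4_2]
      exact hfw
    refine (h.jC (S := S) he hEw hBw hPw).trans (h.jA (S := S) hfw ?_ ?_)
    · intro hh
      exact (hEw _ _ hh).1 rfl
    · intro hh
      exact (hEw _ _ hh).2 rfl
  -- the midpoint of a closed edge of a reached face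
  have hmid : ∀ c : Medial, fc c ∈ S → JoinedIn (O1 (S : Set (ℤ × ℤ)) \ Z)
      (cpt (1 / 4) (run p k A t)) (ctr (fc c)) → ahead c ∉ wiredOpen p k A →
      H192.sq (ahead c) ∉ Bx → JoinedIn (O1 (S : Set (ℤ × ℤ)) \ Z)
        (cpt (1 / 4) (run p k A t)) (em c) := by
    intro c hc hj hcl hsq
    refine hj.trans (JoinedIn.symm (h.jA (S := S) hc ?_ ?_))
    · exact fun hh => hEF _ _ hh _ (Or.inl ⟨rfl, rfl⟩) hcl hsq
    · exact fun hh => hEF _ _ hh _ (Or.inr ⟨rfl, rfl⟩) hcl hsq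
  have hwalk : ∀ u, ReflTransGen (PStep {v | v ∉ Bx ∧ cfg (wiredOpen p k A) v = false})
      (rf (fc (run p k A w))) u → ∃ f ∈ S, rf f = u ∧ JoinedIn (O1 (S : Set (ℤ × ℤ)) \ Z)
        (cpt (1 / 4) (run p k A t)) (ctr f) := by
    intro u hu
    induction hu with
    | refl => exact ⟨_, hfw, rfl, hrt⟩
    | @tail a b ha hab ih =>
      obtain ⟨f, hf, rfl, hj⟩ := ih
      obtain ⟨c, hc1, hc2, hc3, hc4, hc5⟩ := dartD_of_step (odd_rf' f) hab
      have hcf : fc c = f := H192.rf_inj hc1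
      have hsq : H192.sq (ahead c) = (min (rf f).1 b.1, min (rf f).2 b.2) := by
        rw [hc3, H192.sq_ed]
      have hcl : ahead c ∉ wiredOpen p k A := by
        intro ho
        rw [← Bool.not_eq_true, cfg_true, ← hc3] at hc5
        exact hc5 ho
      rw [← hsq] at hc4
      rw [← hcf] at hf hj
      have hem := hmid c hf hj hcl hc4
      have he : ahead c ∈ edges S := by
        apply (mem_edges (c.2 + 1)).2
        right
        rw [fin4_2]
        exact hf
      have hpar : fc (par c) = fc (rot c) := by rw [← adv_par, fc_advI]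
      have hcl' : ahead (par c) ∉ wiredOpen p k A := by rw [ahead_par]; exact hcl
      have hsq' : H192.sq (ahead (par c)) ∉ Bx := by rw [ahead_par]; exact hc4
      have hn1 : ¬ EC p k A τ m C (par c) (adv (par c)) :=
        fun hh => hEF _ _ hh _ (Or.inl ⟨rfl, rfl⟩) hcl' hsq'
      have hn2 : ¬ EC p k A τ m C (adv (par c)) (par c) :=
        fun hh => hEF _ _ hh _ (Or.inr ⟨rfl, rfl⟩) hcl' hsq'
      by_cases hf' : fc (rot c) ∈ S
      · refine ⟨fc (rot c), hf', hc2, hem.trans ?_⟩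
        have h5 := h.jA (S := S) (c := par c) (by rw [hpar]; exact hf') hn1 hn2
        rw [hpar, em_congr (ahead_par c)] at h5
        exact h5
      · exfalso
        apply hN
        have h5 := em_outQ h hp hS h0k hk hE hB (c := par c) hn1 hn2 hcl'
          (by rw [ahead_par]; exact he) (by rw [hpar]; exact hf')
        rw [em_congr (ahead_par c)] at h5
        exact hem.trans h5
  intro u hu v hv hvf hcor
  obtain ⟨f, hf, rfl, hj⟩ := hwalk u hu
  obtain ⟨c, hc1, hc2⟩ := dart_of_cor (odd_rf' f) hcor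
  have hcf : fc c = f := H192.rf_inj hc1
  have hsq : H192.sq (ahead c) = v := by rw [hc2, H192.sq_ed]
  have hcl : ahead c ∉ wiredOpen p k A := by
    intro ho
    rw [← Bool.not_eq_true, cfg_true, ← hc2] at hvf
    exact hvf ho
  have he : ahead c ∈ edges S := by
    apply (mem_edges (c.2 + 1)).2
    right
    rw [fin4_2, ← show fc c = face c.1 c.2 from rfl, hcf]
    exact hf
  rw [← hcf] at hf hj
  have hem := hmid c hf hj hcl (by rw [hsq]; exact hv)
  rw [Finset.mem_sdiff, H718.mem_Dq', ← hc2]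
  refine ⟨⟨he, fun hw => hcl ?_⟩, ?_⟩
  · exact H718.mem_wiredOpen.2 (Or.inr hw)
  · unfold rdq
    rw [Finset.mem_image]
    rintro ⟨j, hj1, hj2⟩
    rw [Finset.mem_range] at hj1
    have h6 : ahead (run p k A j) = ahead c :=
      H192.sq_inj (isEdge_ahead _) (isEdge_ahead _) (hj2.trans hsq.symm)
    apply hN
    have h7 := em_joined h hp hS h0k hk hE hB hF hj1 (h6 ▸ hcl) (h6 ▸ he)
    rw [em_congr h6] at h7
    exact hem.trans h7

end

/-- The interface between the last visit of the inner box and the exit of the outer box. -/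
theorem dual_path (hω : True) {τ t : ℕ} (hτt : τ < t) {r R : ℤ} (hr : 1 ≤ r) (hrR : r < R)
    (hfar : R + 1 ≤ nm (H192.sq (ahead (run p k A t)) - H192.sq (ahead (run p k A τ)))) :
    ∃ w₀ t₀, τ ≤ w₀ ∧ w₀ < t₀ ∧ t₀ ≤ t ∧
      nm (rf (fc (run p k A w₀)) - H192.sq (ahead (run p k A τ))) ≤ r ∧
      R ≤ nm (rf (fc (run p k A t₀)) - H192.sq (ahead (run p k A τ))) ∧
      (∀ j, w₀ < j → j ≤ t → r < nm (rf (fc (run p k A j)) - H192.sq (ahead (run p k A τ)))) ∧
      ∀ j, w₀ ≤ j → j ≤ t₀ → ReflTransGen (PStep {v | v ∈ Ann (H192.sq (ahead (run p k A τ))) r R ∧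
        cfg (wiredOpen p k A) v = false}) (rf (fc (run p k A w₀))) (rf (fc (run p k A j))) := by
  classical
  set x := H192.sq (ahead (run p k A τ)) with hx
  set P : ℕ → Prop := fun w => nm (rf (fc (run p k A w)) - x) ≤ r with hP
  have hPτ : P τ := by
    have := near_leQ (q := x) (x := x) (s := rf (fc (run p k A τ))) (r := 0)
      (by simp [nm]) (cor_fc (run p k A τ)).1 (cor_fc (run p k A τ)).2
    simp only [hP]
    omega
  set w₀ := Nat.findGreatest P t with hw₀
  have h1 : P w₀ := Nat.findGreatest_spec hτt.le hPτ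
  have h2 : τ ≤ w₀ := Nat.le_findGreatest hτt.le hPτ
  have h3 : w₀ ≤ t := Nat.findGreatest_le t
  have h5 : ∀ w, w₀ < w → w ≤ t → r < nm (rf (fc (run p k A w)) - x) := by
    intro w hw hw'
    exact not_le.1 (Nat.findGreatest_is_greatest hw hw')
  have hRt : R ≤ nm (rf (fc (run p k A t)) - x) := by
    have := near_geQ hfar (cor_fc (run p k A t)).1 (cor_fc (run p k A t)).2
    omega
  have h4 : w₀ ≠ t := by
    intro h
    rw [h] at h1
    simp only [hP] at h1
    omega
  have hex : ∃ j, w₀ ≤ j ∧ R ≤ nm (rf (fc (run p k A j)) - x) := ⟨t, h3, hRt⟩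
  set t₀ := Nat.find hex with ht₀
  have g1 := Nat.find_spec hex
  have g2 : t₀ ≤ t := Nat.find_min' hex ⟨h3, hRt⟩
  have g3 : ∀ j, w₀ ≤ j → j < t₀ → nm (rf (fc (run p k A j)) - x) < R := by
    intro j hj hj'
    have := Nat.find_min hex hj'
    rw [not_and, not_le] at this
    exact this hj
  rw [← ht₀] at g1
  have g4 : w₀ ≠ t₀ := by
    intro h
    rw [← h] at g1
    simp only [hP] at h1
    omega
  refine ⟨w₀, t₀, h2, by omega, g2, h1, g1.2, h5, ?_⟩
  intro j hj
  induction j, hj using Nat.le_induction with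
  | base => exact fun _ => ReflTransGen.refl
  | succ j hj ih =>
    intro hjt
    have ih' := ih (by omega)
    rcases next_step (wiredOpen p k A) (run p k A j) with ⟨a1, a2, a3⟩ | ⟨a1, a2, a3⟩
    · rw [← run_succ] at a3
      rw [a3.fc]
      exact ih'
    · rw [← run_succ] at a2
      rw [a2]
      refine ih'.tail (step_rot ⟨?_, ?_⟩)
      · rw [mem_Ann]
        refine ⟨Bq_of_nm (g3 j hj (by omega)) (cor_fc _), fun hc => ?_⟩
        have h6 : Cor (H192.sq (ahead (run p k A j))) (rf (fc (run p k A (j + 1)))) := by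
          rw [a2]
          have b1 := step_rot (F := {H192.sq (ahead (run p k A j))}) (c := run p k A j) rfl
          have b2 := (cor_of_step b1).2
          have b3 : (min (rf (fc (run p k A j))).1 (rf (fc (rot (run p k A j)))).1,
            min (rf (fc (run p k A j))).2 (rf (fc (rot (run p k A j)))).2) =
            H192.sq (ahead (run p k A j)) := b1.2.2
          rwa [b3] at b2
        have h7 := nm_of_Bq hc h6
        have h8 := h5 (j + 1) (by omega) (by omega)
        omega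
      · rw [← Bool.not_eq_true, cfg_true, H192.ed_sq (isEdge_ahead _)]
        exact a1

/-- **Left gates.** -/
theorem s_leftQ : S_leftQ := by
  intro n p S k A δ hδ hp hS h0k hk hA τ m t C hτt ht r R hr hrR hBx hfar hG
  obtain ⟨w₀, t₀, h1, h2, h3, h4, h5, h6, h7⟩ := dual_path (p := p) (k := k) (A := A) trivial hτt hr
    hrR hfar
  set x := H192.sq (ahead (run p k A τ)) with hx
  have hC : ∀ i ≤ m, ∀ j, w₀ + 1 ≤ j → j ≤ t → C i ≠ run p k A j := by
    intro i hi j hj hj' he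
    have b1 := hBx i hi
    rw [he] at b1
    have b2 := nm_of_Bq b1 (cor_fc (run p k A j))
    have b3 := h6 j (by omega) hj'
    omega
  have key : ∀ u, ReflTransGen (PStep {v | v ∉ ((Bq x r : Finset (ℤ × ℤ)) : Set (ℤ × ℤ)) ∧
      cfg (wiredOpen p k A) v = false}) (rf (fc (run p k A (w₀ + 1)))) u →
      ∀ v, v ∉ ((Bq x r : Finset (ℤ × ℤ)) : Set (ℤ × ℤ)) → cfg (wiredOpen p k A) v = false →
        Cor v u → v ∈ Dq S p k \ rdq p k A τ := by
    rcases hG with ⟨hG, hJ⟩ | ⟨hG, hJ⟩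
    · obtain ⟨e, -, he⟩ := hG.last
      refine left_coreQ (Z := {z | (δ : ℂ) * z ∈ _}) hp hS h0k hk hA (by omega) (by omega) ht hC
        hG.toPre hG.pos ⟨e, he⟩ (W := False) (fun h => h.elim) ?_ hBx
        fun hN => hJ (joined_scale hδ hN)
      intro z hz
      exact cov_all hδ (by omega) hG.zero (Or.inl hz)
    · obtain ⟨e, he, he'⟩ := hG.last
      refine left_coreQ (Z := {z | (δ : ℂ) * z ∈ _}) hp hS h0k hk hA (by omega) (by omega) ht hC
        hG.toPre hG.pos ⟨e, he'⟩ (W := True) ?_ ?_ hBx fun hN => hJ (joined_scale hδ hN)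
      · intro _ j hj hcon
        obtain ⟨i, h1, h2, h3⟩ := wd_mem he he'
        have := cast_inj (by omega) h2 (by omega) (hp.2.1 (h3.symm.trans hcon))
        omega
      · intro z hz
        exact cov_all hδ (by omega) hG.zero (hz.imp id fun h => ⟨trivial, h⟩)
  refine ⟨rf (fc (run p k A w₀)), rf (fc (run p k A t₀)), odd_rf' _, h4, h5, h7 t₀ (by omega) le_rfl,
    fun v hv hvf u hu hcor hsu => ?_⟩
  have hsub : ∀ v ∈ {v | v ∈ Ann x r R ∧ cfg (wiredOpen p k A) v = false},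
      v ∈ {v | v ∉ ((Bq x r : Finset (ℤ × ℤ)) : Set (ℤ × ℤ)) ∧ cfg (wiredOpen p k A) v = false} :=
    fun v hv => ⟨fun hc => (mem_Ann.1 hv.1).2 (Finset.mem_coe.1 hc), hv.2⟩
  have h8 : ReflTransGen (PStep {v | v ∈ Ann x r R ∧ cfg (wiredOpen p k A) v = false})
      (rf (fc (run p k A (w₀ + 1)))) u := (rtg_symm (h7 (w₀ + 1) (by omega) (by omega))).trans hsu
  refine key u (H166.rtg_mono hsub h8) v (fun hc => (mem_Ann.1 hv).2 (Finset.mem_coe.1 hc)) hvf hcor

end Vale.Agent.P167.QN
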