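import Vale.Agent.P167.QN.DetDefs
import Vale.Agent.P167.Fjord.Right

/-!
# P167, general `q`, block Q-NF: right gates

Behind a right gate the open cluster of the annulus along the left side of the interface contains
only squares of the domain which were not read before.
-/

set_option autoImplicit false
set_option linter.unusedVariables false

open Set Metric

namespace Vale.Agent.P167.QN

open Vale.Agent.P167.FK Vale.Agent.P167.FKA
open Vale.Agent.P167.H192 (cfg ed isEdge_ahead isEdge_ed cfg_true ed_sq)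
open Vale.Agent.P167.H718 (Dq)
open Vale.Agent.P145.FB (PStep)
open Vale.Agent.P167.E6 Vale.Agent.P167.E2
open Vale.Agent.P167.Fjord
open Vale.Agent.P167.H167.Q (nm_of_notMem nm_of_mem)
open Relation

variable {n : ℕ} {p : ZMod n → ℤ × ℤ} {S : Finset (ℤ × ℤ)} {k : ℕ} {A : Finset (Sym2 (ℤ × ℤ))}

/-! ### Corners of the square of an edge -/

theorem fin4_subaddQ : ∀ r : Fin 4, r - 1 + 1 = r := by decide

/-- The vertex of a dart is a corner of the square ahead. -/
theorem cor_ro (c : Medial) : Cor (H192.sq (ahead c)) (H192.ro c.1) := by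
  have h := (H192.ro_dir c.1 (c.2 + 1))
  unfold ahead
  rw [H192.sq_dir]
  unfold Cor
  simp only
  omega

/-- An even corner of a square is an end of its edge. -/
theorem even_corner {v u : ℤ × ℤ} (hu : Even (u.1 + u.2)) (hc : Cor v u) :
    ∃ c : Medial, ahead c = ed v ∧ H192.ro c.1 = u := by
  obtain ⟨w, r, hw⟩ := isEdge_ed v
  have h1 := H192.sq_ed v
  rw [hw, H192.sq_dir] at h1
  have h2 := H192.ro_dir w r
  have h3 := H192.even_ro w
  rw [Int.even_iff] at hu h3
  have h4 : u = H192.ro w ∨ u = H192.ro (w + dir r) := by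
    rw [Prod.ext_iff] at h1
    unfold Cor at hc
    rw [Prod.ext_iff, Prod.ext_iff]
    simp only at h1
    omega
  have h5 := fin4_subaddQ r
  set c : Medial := (w, r - 1) with hcd
  have h6 : ahead c = ed v := by
    rw [hw]
    show s(w, w + dir (r - 1 + 1)) = _
    rw [h5]
  rcases h4 with h4 | h4
  · exact ⟨c, h6, h4.symm⟩
  · refine ⟨par c, by rw [ahead_par, h6], ?_⟩
    show H192.ro (w + dir (r - 1 + 1)) = u
    rw [h5, h4]

/-- A step along an open square, from a vertex to a vertex. -/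
theorem dart_of_step {F : Set (ℤ × ℤ)} {a b : ℤ × ℤ} (h : PStep F (H192.ro a) b) :
    ∃ c : Medial, c.1 = a ∧ H192.ro (par c).1 = b ∧ H192.sq (ahead c) ∈ F := by
  have hb : Even (b.1 + b.2) := (FKA.even_step h).1 (H192.even_ro a)
  obtain ⟨h1, h2, h3⟩ := h
  have h4 := H192.ro_ro' hb
  rw [← h4] at h1 h2
  obtain ⟨r, hr⟩ := H192.exists_dir h1 h2
  have h5 := fin4_subaddQ r
  refine ⟨(a, r - 1), rfl, ?_, ?_⟩
  · show H192.ro (a + dir (r - 1 + 1)) = b
    rw [h5, ← hr, h4]
  · show H192.sq s(a, a + dir (r - 1 + 1)) ∈ F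
    rw [h5, H192.sq_dir, ← hr, h4]
    exact h3

/-! ### The main argument -/

section

variable (hp : IsPolygon p) (hS : Encloses p S) (h0k : 0 < k) (hk : k + 1 < n)
  (hA : A ⊆ edges S) {τ m w t : ℕ} {C : ℕ → Medial} (hτw : τ < w) (hwt : w ≤ t)
  (ht : t < len p k A) (hC : ∀ i ≤ m, ∀ j, w ≤ j → j ≤ t → C i ≠ run p k A j)
  (pre : Pre p k S A τ m C)

include hp hS h0k hk hA hτw hwt ht hC pre in
/-- If the open cluster of the annulus which contains the left side of the interface contains a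
square of the past or of the wired arc, the interface is not behind the gate. -/
theorem right_coreQ {Z : Set ℂ}
    (hlast : ∀ i < m, i + 1 < m ∨ (∃ e, FStep e (C i) (C (i + 1))) ∨
      (Ok p k S (C i) (C (i + 1)) ∧ ∀ j ≤ τ, C (i + 1) ≠ run p k A j)) {W : Prop}
    (hcov : ∀ z ∈ Z, (∃ x y, EC p k A τ m C x y ∧ z ∈ Lseg x y) ∨
      (∃ d, (d = cs p ∨ (W ∧ d = C m)) ∧ z ∈ Bt d) ∨ ∃ d, d = run p k A τ ∧ z = cpt (1 / 4) d)
    {x : ℤ × ℤ} {r R : ℤ} (hbox : ∀ i ≤ m, H192.sq (ahead (C i)) ∈ Bq x r)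
    {u v : ℤ × ℤ} (hpath : ReflTransGen
      (PStep {v | v ∈ Ann x r R ∧ cfg (wiredOpen p k A) v = true}) (H192.ro (run p k A w).1) u)
    (hv : v ∈ Ann x r R) (hvo : cfg (wiredOpen p k A) v = true) (hue : Even (u.1 + u.2))
    (huv : Cor v u) (hneg : v ∉ Dq S p k \ rdq p k A τ) :
    JoinedIn (O1 (S : Set (ℤ × ℤ)) \ Z) (cpt (1 / 4) (run p k A t)) (cpt (5 / 16) (ce p k)) := by
  have hn : n ≠ 0 := by omega
  have hω := wired_sub (k := k) hp hS hA
  have hWω : ∀ e ∈ Wd p k, e ∈ wiredOpen p k A := fun e he => Or.inr he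
  have hstep : ∀ x y, EC p k A τ m C x y → ∃ e, VStep e x y ∨ FStep e x y := by
    rintro x y (⟨l, hl, rfl, rfl⟩ | ⟨i, hi, rfl, rfl⟩)
    · rw [run_succ]
      rcases next_step (wiredOpen p k A) (run p k A l) with ⟨-, -, h4⟩ | ⟨-, -, h4⟩
      exacts [⟨_, Or.inr h4⟩, ⟨_, Or.inl h4⟩]
    · have : (∃ e, FStep e (C i) (C (i + 1))) ∨ Ok p k S (C i) (C (i + 1)) := by
        rcases hlast i hi with h1 | h1 | h1
        exacts [Or.inr (pre.ok i h1), Or.inl h1, Or.inr h1.1]
      rcases this with ⟨e, he⟩ | ⟨e, -, he⟩ | ⟨e, -, he⟩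
      exacts [⟨e, Or.inr he⟩, ⟨e, Or.inl he⟩, ⟨e, Or.inr he⟩]
  have h : Obs Z (EC p k A τ m C) (fun d => d = cs p ∨ (W ∧ d = C m))
      fun d => d = run p k A τ := ⟨hstep, hcov⟩
  have hrce : ∀ j ≤ t, run p k A j ≠ ce p k := by
    intro j hj
    rcases Nat.eq_zero_or_pos j with h0 | h0
    · rw [h0, run_zero]
      exact cs_ne_ce hp hk
    · exact run_ne hp hS (by omega) hA h0 (by omega)
  have hEc : ∀ x y, EC p k A τ m C x y → x ≠ ce p k ∧ y ≠ ce p k := by
    rintro x y (⟨l, hl, rfl, rfl⟩ | ⟨i, hi, rfl, rfl⟩)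
    · exact ⟨hrce l (by omega), hrce (l + 1) (by omega)⟩
    · exact ⟨pre.exit i (by omega), pre.exit (i + 1) (by omega)⟩
  have hBc : ¬ (ce p k = cs p ∨ (W ∧ ce p k = C m)) := by
    rintro (h1 | ⟨-, h1⟩)
    · exact cs_ne_ce hp hk h1.symm
    · exact pre.exit m le_rfl h1.symm
  have hPc : ¬ ce p k = run p k A τ := fun h1 => hrce τ (by omega) h1.symm
  have hWV : ∀ x y e, EC p k A τ m C x y → VStep e x y → e ∉ Wd p k := by
    rintro x y e (⟨l, hl, rfl, rfl⟩ | ⟨i, hi, rfl, rfl⟩) hVs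
    · rw [run_succ] at hVs
      rcases next_step (wiredOpen p k A) (run p k A l) with ⟨-, -, h4⟩ | ⟨h3, -, h4⟩
      · exact (not_VF hVs h4).elim
      · rw [VV_eq hVs h4]
        exact fun h5 => h3 (hWω _ h5)
    · have : (∃ e, FStep e (C i) (C (i + 1))) ∨ Ok p k S (C i) (C (i + 1)) := by
        rcases hlast i hi with h1 | h1 | h1
        exacts [Or.inr (pre.ok i h1), Or.inl h1, Or.inr h1.1]
      rcases this with ⟨e', he⟩ | ⟨e', h5, he⟩ | ⟨e', -, he⟩
      · exact (not_VF hVs he).elim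
      · rw [VV_eq hVs he]
        exact h5
      · exact (not_VF hVs he).elim
  have hV : ∀ x y e, EC p k A τ m C x y → VStep e x y →
      (∃ j < τ, x = run p k A j ∨ y = run p k A j) → e ∉ wiredOpen p k A := by
    rintro x y e (⟨l, hl, rfl, rfl⟩ | ⟨i, hi, rfl, rfl⟩) hVs ⟨j, hj, hj'⟩
    · rw [run_succ] at hVs
      rcases next_step (wiredOpen p k A) (run p k A l) with ⟨-, -, h4⟩ | ⟨h3, -, h4⟩
      · exact (not_VF hVs h4).elim
      · rw [VV_eq hVs h4]
        exact h3
    · exfalso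
      have hx : C i ≠ run p k A j := by
        intro hx
        rcases Nat.eq_zero_or_pos i with h2 | h2
        · rw [h2, pre.zero] at hx
          have := run_inj hp hS (by omega) hA (by omega) (by omega) hx
          omega
        · exact pre.fresh i h2 hi j hj.le hx
      rcases hj' with hj' | hj'
      · exact hx hj'
      · rcases hlast i hi with h1 | ⟨e', he⟩ | h1
        · exact pre.fresh (i + 1) (by omega) h1 j hj.le hj'
        · exact not_VF hVs he
        · exact h1.2 j hj.le hj'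
  have hBw : ¬ (run p k A w = cs p ∨ (W ∧ run p k A w = C m)) := by
    rintro (h3 | ⟨-, h3⟩)
    · rw [← run_zero (p := p) (k := k) (A := A)] at h3
      have := run_inj hp hS (by omega) hA (by omega) (by omega) h3
      omega
    · exact hC m le_rfl w le_rfl hwt h3.symm
  have hPw : ¬ run p k A w = run p k A τ := by
    intro h3
    have := run_inj hp hS (by omega) hA (by omega) (by omega) h3
    omega
  have hEw : ∀ x y, EC p k A τ m C x y → x ≠ run p k A w ∧ y ≠ run p k A w := fun x y hxy =>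
    ec_ne hp hS hk hA hτw hwt ht hC hxy le_rfl hwt
  -- no obstacle crosses an open edge of the annulus
  have hop : ∀ c : Medial, ahead c ∈ wiredOpen p k A → H192.sq (ahead c) ∈ Ann x r R →
      ∀ x' y' : Medial, EC p k A τ m C x' y' → ¬ VStep (ahead c) x' y' := by
    rintro c hc1 hc2 x' y' (⟨l, hl, rfl, rfl⟩ | ⟨i, hi, rfl, rfl⟩) hVs
    · rw [run_succ] at hVs
      rcases next_step (wiredOpen p k A) (run p k A l) with ⟨-, -, h4⟩ | ⟨h3, -, h4⟩
      · exact not_VF hVs h4
      · rw [VV_eq hVs h4] at hc1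
        exact h3 hc1
    · rw [mem_Ann] at hc2
      rcases hVs with ⟨h4, -⟩ | ⟨h4, -⟩
      · exact hc2.2 (h4 ▸ hbox i (by omega))
      · exact hc2.2 (h4 ▸ hbox (i + 1) (by omega))
  -- the ends of an open edge of the annulus
  have hends : ∀ c : Medial, ahead c ∈ wiredOpen p k A → H192.sq (ahead c) ∈ Ann x r R →
      JoinedIn (O1 (S : Set (ℤ × ℤ)) \ Z) (pt c.1) (em c) := by
    intro c hc1 hc2
    exact h.jB (S := S) (hω hc1) (fun hh => hop c hc1 hc2 _ _ hh (Or.inl ⟨rfl, rfl⟩))
      (fun hh => hop c hc1 hc2 _ _ hh (Or.inr ⟨rfl, rfl⟩))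
  have hopen : ∀ c : Medial, cfg (wiredOpen p k A) (H192.sq (ahead c)) = true →
      ahead c ∈ wiredOpen p k A := by
    intro c hc
    rwa [cfg_true, ed_sq (isEdge_ahead c)] at hc
  -- along the path
  have hwalk : ∀ u : ℤ × ℤ, ReflTransGen
      (PStep {v | v ∈ Ann x r R ∧ cfg (wiredOpen p k A) v = true}) (H192.ro (run p k A w).1) u →
      ∀ a : ℤ × ℤ, H192.ro a = u →
      JoinedIn (O1 (S : Set (ℤ × ℤ)) \ Z) (pt (run p k A w).1) (pt a) := by
    intro u hu
    induction hu with
    | refl =>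
      intro a ha
      rw [H192.ro_inj ha]
      exact (h.jF (run_mem hp hS hA w) hEw hBw hPw).1.trans
        (h.jF (run_mem hp hS hA w) hEw hBw hPw).1.symm
    | @tail u' u'' hu' hst ih =>
      intro a ha
      have hu'e : Even (u'.1 + u'.2) := even_rtg (H192.even_ro _) hu'
      have h1 := H192.ro_ro' hu'e
      rw [← h1] at hst
      obtain ⟨c, hc1, hc2, hc3⟩ := dart_of_step hst
      have h2 := hends c (hopen c hc3.2) hc3.1
      have h3 := hends (par c) (by rw [ahead_par]; exact hopen c hc3.2)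
        (by rw [ahead_par]; exact hc3.1)
      rw [em_congr (ahead_par c)] at h3
      have h4 : (par c).1 = a := H192.ro_inj (hc2.trans ha.symm)
      rw [h4] at h3
      rw [hc1] at h2
      exact (ih _ h1).trans (h2.trans h3.symm)
  apply run_joined hp hS hk hA hτw hwt ht hC h
  have hF := h.jF (run_mem hp hS hA w) hEw hBw hPw
  refine hF.2.trans (hF.1.symm.trans ?_)
  obtain ⟨c, hc1, hc2⟩ := even_corner hue huv
  refine (hwalk u hpath c.1 hc2).trans ?_
  have hsq : H192.sq (ahead c) = v := by rw [hc1, H192.sq_ed]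
  have hco : ahead c ∈ wiredOpen p k A := hopen c (by rw [hsq]; exact hvo)
  refine (hends c hco (by rw [hsq]; exact hv)).trans ?_
  -- the last edge
  by_cases hWe : ahead c ∈ Wd p k
  · exact em_wired h hp hS hEc hBc hPc hWV hWe
  · have hD : v ∈ Dq S p k := by
      rw [H718.mem_Dq', ← hc1, H718.mem_wE]
      exact ⟨hω hco, hWe⟩
    have hr : v ∈ rdq p k A τ := by
      by_contra hr
      exact hneg (Finset.mem_sdiff.2 ⟨hD, hr⟩)
    unfold rdq at hr
    rw [Finset.mem_image] at hr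
    obtain ⟨j, hj, hje⟩ := hr
    rw [Finset.mem_range] at hj
    have hje' : ahead (run p k A j) = ahead c :=
      H192.sq_inj (isEdge_ahead _) (isEdge_ahead _) (hje.trans hsq.symm)
    rw [em_congr hje'.symm]
    exact em_joined' h hp hS hk hA hEc hBc hPc hWV hV hj (hje' ▸ hco)

end

/-! ### The crossing along the interface -/

/-- The left vertex of the interface makes a crossing of the annulus. -/
theorem cross_left {x : ℤ × ℤ} {r R : ℤ} (hr : 1 ≤ r) (hrR : r < R) {τ t : ℕ} (hτt : τ < t)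
    (hx : H192.sq (ahead (run p k A τ)) = x) (ht : R + 1 ≤ nm (H192.sq (ahead (run p k A t)) - x)) :
    ∃ w₀, τ ≤ w₀ ∧ w₀ < t ∧ nm (H192.ro (run p k A w₀).1 - x) ≤ r ∧
      (∀ j, w₀ < j → j ≤ t → r < nm (H192.ro (run p k A j).1 - x)) ∧
      ∃ t₀, w₀ < t₀ ∧ t₀ ≤ t ∧ R ≤ nm (H192.ro (run p k A t₀).1 - x) ∧
        ∀ j, w₀ ≤ j → j < t₀ → nm (H192.ro (run p k A j).1 - x) < R := by
  classical
  have h0 : nm (H192.ro (run p k A τ).1 - x) ≤ r := by
    have h1 := cor_ro (run p k A τ)
    rw [hx] at h1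
    unfold Cor at h1
    simp only [nm, Prod.fst_sub, Prod.snd_sub, max_le_iff, abs_le]
    omega
  have h1 : R ≤ nm (H192.ro (run p k A t).1 - x) := by
    have h1 := cor_ro (run p k A t)
    unfold Cor at h1
    simp only [nm, Prod.fst_sub, Prod.snd_sub, le_max_iff, le_abs] at ht ⊢
    omega
  -- the last time in the small box
  set P : ℕ → Prop := fun j => τ ≤ j ∧ nm (H192.ro (run p k A j).1 - x) ≤ r with hP
  have hPτ : P τ := ⟨le_rfl, h0⟩
  set w₀ := Nat.findGreatest P t with hw₀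
  have h2 : P w₀ := Nat.findGreatest_spec hτt.le hPτ
  have h3 : w₀ ≤ t := Nat.findGreatest_le t
  have h4 : w₀ < t := by
    rcases h3.lt_or_eq with h | h
    · exact h
    · exfalso
      have h5 := h2.2
      rw [h] at h5
      omega
  have h5 : ∀ j, w₀ < j → j ≤ t → r < nm (H192.ro (run p k A j).1 - x) := by
    intro j hj hjt
    by_contra hcon
    exact Nat.findGreatest_is_greatest hj hjt ⟨by have := h2.1; omega, not_lt.1 hcon⟩
  refine ⟨w₀, h2.1, h4, h2.2, h5, ?_⟩
  have hex : ∃ j, w₀ ≤ j ∧ R ≤ nm (H192.ro (run p k A j).1 - x) := ⟨t, h3, h1⟩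
  refine ⟨Nat.find hex, ?_, Nat.find_min' hex ⟨h3, h1⟩, (Nat.find_spec hex).2, ?_⟩
  · rcases (Nat.find_spec hex).1.lt_or_eq with h | h
    · exact h
    · exfalso
      have h6 := (Nat.find_spec hex).2
      rw [← h] at h6
      have := h2.2
      omega
  · intro j hj hj'
    by_contra hcon
    exact Nat.find_min hex hj' ⟨hj, not_lt.1 hcon⟩

/-- The path of the left vertex. -/
theorem path_left {x : ℤ × ℤ} {r R : ℤ} {w₀ t₀ : ℕ}
    (hw : ∀ j, w₀ < j → j ≤ t₀ → r < nm (H192.ro (run p k A j).1 - x))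
    (hR : ∀ j, w₀ ≤ j → j < t₀ → nm (H192.ro (run p k A j).1 - x) < R) :
    ∀ i j, w₀ ≤ i → i ≤ j → j ≤ t₀ → ReflTransGen
      (PStep {v | v ∈ Ann x r R ∧ cfg (wiredOpen p k A) v = true})
      (H192.ro (run p k A i).1) (H192.ro (run p k A j).1) := by
  intro i j hi hij
  induction j, hij using Nat.le_induction with
  | base => intro _; exact ReflTransGen.refl
  | succ j hij ih =>
    intro hj
    have ih' := ih (by omega)
    rcases H192.ls_nx (cfg (wiredOpen p k A)) (H192.me (run p k A j)) with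
      ⟨e1, e2, -, e4⟩ | ⟨-, -, e3, -⟩
    · rw [H192.nx_cfg, H192.ls_me, H192.ls_me, ← run_succ] at e2
      rw [H192.nx_cfg, H192.ls_me, H192.ls_me, ← run_succ] at e4
      refine ih'.tail ⟨e2.1, e2.2.1, ?_⟩
      have hc := cor_of_step e2
      rw [e4] at hc ⊢
      rw [Set.mem_ofPred_eq, mem_Ann]
      refine ⟨⟨?_, ?_⟩, e1⟩
      · by_contra hcon
        have := nm_of_notMem hcon hc.1
        have := hR j (by omega) (by omega)
        omega
      · intro hcon
        have := nm_of_mem hcon hc.2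
        have := hw (j + 1) (by omega) hj
        omega
    · rw [H192.nx_cfg, H192.ls_me, H192.ls_me, ← run_succ] at e3
      rw [e3]
      exact ih'

/-- **The lattice half for right gates, general `q`.** -/
theorem s_rightQ : S_rightQ := by
  intro n p S k A δ hδ hp hS h0k hk hA τ m t C hτt ht r R hr hrR hbox hfar hG
  set x := H192.sq (ahead (run p k A τ)) with hx
  obtain ⟨w₀, h1, h2, h3, h4, t₀, h5, h6, h7, h8⟩ := cross_left hr hrR hτt hx.symm hfar
  have hpath := path_left (p := p) (k := k) (A := A) (x := x) (r := r) (R := R)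
    (w₀ := w₀) (t₀ := t₀) (fun j hj hj' => h4 j hj (by omega)) h8
  refine ⟨H192.ro (run p k A w₀).1, H192.ro (run p k A t₀).1, H192.even_ro _, h3, h7,
    hpath w₀ t₀ le_rfl (by omega) le_rfl, ?_⟩
  intro v hv hvo u hue huv hu
  by_contra hneg
  -- the path from the first position outside
  have hstart : ReflTransGen (PStep {v | v ∈ Ann x r R ∧ cfg (wiredOpen p k A) v = true})
      (H192.ro (run p k A (w₀ + 1)).1) u :=
    (rtg_symm' (hpath w₀ (w₀ + 1) le_rfl (by omega) (by omega))).trans hu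
  have hC : ∀ i ≤ m, ∀ j, w₀ + 1 ≤ j → j ≤ t → C i ≠ run p k A j := by
    intro i hi j hj hjt he
    have h9 := hbox i hi
    rw [he] at h9
    have := nm_of_mem h9 (cor_ro _)
    have := h4 j (by omega) hjt
    omega
  rcases hG with ⟨hG, hJ⟩ | ⟨hG, hJ⟩
  · apply hJ
    obtain ⟨e, -, he⟩ := hG.last
    refine joined_scale hδ (right_coreQ (w := w₀ + 1) (Z := {z | (δ : ℂ) * z ∈ _}) hp hS h0k hk hA
      (by omega) (by omega) ht hC hG.toPre ?_ (W := False) ?_ hbox hstart hv hvo hue huv hneg)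
    · intro i hi
      by_cases h1 : i + 1 < m
      · exact Or.inl h1
      · have h2 : i + 1 = m := by omega
        have h3 : m - 1 = i := by omega
        rw [h3, ← h2] at he
        exact Or.inr (Or.inl ⟨e, he⟩)
    · intro z hz
      exact cov_all hδ (by omega) hG.zero (Or.inl hz)
  · apply hJ
    refine joined_scale hδ (right_coreQ (w := w₀ + 1) (Z := {z | (δ : ℂ) * z ∈ _}) hp hS h0k hk hA
      (by omega) (by omega) ht hC hG.toPre ?_ (W := True) ?_ hbox hstart hv hvo hue huv hneg)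
    · intro i hi
      by_cases h1 : i + 1 < m
      · exact Or.inl h1
      · have h2 : i + 1 = m := by omega
        have h3 : m - 1 = i := by omega
        have h4 := hG.last (by omega)
        rw [h3, ← h2] at h4
        exact Or.inr (Or.inr h4)
    · intro z hz
      exact cov_all hδ (by omega) hG.zero (hz.imp id fun h => ⟨trivial, h⟩)

end Vale.Agent.P167.QN
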