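import Vale.Agent.P167.QN.MainQ
import Vale.Agent.P167.QN.DetR
import Vale.Agent.P167.QC.CrossW

/-!
# P167, general `q`, block Q-NF: no fjords for the random-cluster model
-/

set_option autoImplicit false

namespace Vale.Agent.P167.QN

open Vale.Agent.P167.QE (wq I_nfW)

/-- **No fjords**, `1 ≤ q ≤ 4`. -/
theorem i_nfQ {q : ℝ} (h1 : 1 ≤ q) (h4 : q ≤ 4) : I_nfW (wq q) :=
  nfQ_of h1 (QC.rsw_sqrt h1 h4).2 s_rightQ (QC.crossW h1 h4)

end Vale.Agent.P167.QN
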