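import Vale.Agent.P167.QN.Link2

/-!
# P167, general `q`, block Q-NF: fresh crossings of an annulus are unlikely, uniformly in the domain

`FreshP x r R D ω`: the annulus `(x; r, R)` is crossed by a primal path of open squares whose cluster
in the annulus contains only squares of `D`. The probability, for the random-cluster measure in `D`,
is at most `C (r / R) ^ α`, uniformly in `D` and in the outside configuration. `FreshD`: the same
for dual paths.
-/

set_option autoImplicit false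
set_option linter.unusedVariables false
set_option linter.unusedSectionVars false

namespace Vale.Agent.P167.QN

open Finset Vale.Agent.P167.FK Vale.Agent.P167.FKA
open Vale.Agent.P145.FB (PStep PConn)
open Vale.Agent.P167.H166 (cl)
open Vale.Agent.P167.H259 (f_markov f_fkg f_comp f_comp2)
open Vale.Agent.P167.H167.Q (even_cor pa_ne_pb step_pab mem_Bq bq_mono nm_of_notMem nm_of_mem
  cf_insert)
open Relation

/-- A crossing of the annulus whose open cluster in the annulus contains only squares of `D`. -/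
def FreshP (x : ℤ × ℤ) (r R : ℤ) (D : Finset (ℤ × ℤ)) (ω : Cfg) : Prop :=
  ∃ s t : ℤ × ℤ, Even (s.1 + s.2) ∧ nm (s - x) ≤ r ∧ R ≤ nm (t - x) ∧
    ReflTransGen (PStep {v | v ∈ Ann x r R ∧ ω v = true}) s t ∧
    ∀ v ∈ Ann x r R, ω v = true → ∀ u : ℤ × ℤ, Even (u.1 + u.2) → Cor v u →
      ReflTransGen (PStep {v | v ∈ Ann x r R ∧ ω v = true}) s u → v ∈ D

/-- The same for dual paths of closed squares. -/
def FreshD (x : ℤ × ℤ) (r R : ℤ) (D : Finset (ℤ × ℤ)) (ω : Cfg) : Prop :=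
  ∃ s t : ℤ × ℤ, Odd (s.1 + s.2) ∧ nm (s - x) ≤ r ∧ R ≤ nm (t - x) ∧
    ReflTransGen (PStep {v | v ∈ Ann x r R ∧ ω v = false}) s t ∧
    ∀ v ∈ Ann x r R, ω v = false → ∀ u : ℤ × ℤ, Odd (u.1 + u.2) → Cor v u →
      ReflTransGen (PStep {v | v ∈ Ann x r R ∧ ω v = false}) s u → v ∈ D

/-- The sites which are joined to `F₀` by open squares of `D`. -/
def KS (D : Finset (ℤ × ℤ)) (F₀ : Set (ℤ × ℤ)) (ω : Cfg) : Set (ℤ × ℤ) :=
  {y | ∃ s ∈ F₀, y ∈ cl (Op D ω) s}

theorem KS_congr {D : Finset (ℤ × ℤ)} {F₀ : Set (ℤ × ℤ)} {ω ω' : Cfg}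
    (h : ∀ v, v ∉ rest D (KS D F₀ ω) → ω v = ω' v) : KS D F₀ ω' = KS D F₀ ω := by
  have key : ∀ s ∈ F₀, cl (Op D ω') s = cl (Op D ω) s := by
    intro s hs
    refine cl_congr fun v hv => h v fun h2 => hv ?_
    rw [mem_rest] at h2 ⊢
    exact ⟨h2.1, fun u hu => h2.2 u ⟨s, hs, hu⟩⟩
  ext y
  constructor
  · rintro ⟨s, hs, hy⟩
    exact ⟨s, hs, (key s hs) ▸ hy⟩
  · rintro ⟨s, hs, hy⟩
    exact ⟨s, hs, (key s hs).symm ▸ hy⟩

theorem ind_KS {D : Finset (ℤ × ℤ)} {F₀ : Set (ℤ × ℤ)} (K : Set (ℤ × ℤ)) :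
    Ind (rest D K) ({ω | KS D F₀ ω = K}.indicator 1) := by
  intro ω ω' h
  refine ind_congr (A := fun ω => KS D F₀ ω = K) ⟨fun h1 => ?_, fun h1 => ?_⟩
  · rw [← h1] at h ⊢
    exact KS_congr h
  · have h2 : KS D F₀ ω = KS D F₀ ω' := by
      rw [← h1] at h
      exact KS_congr fun v hv => (h v hv).symm
    rw [h2, h1]

/-- The corners of the open squares of the annulus which are not in `D`. -/
def F0 (x : ℤ × ℤ) (r R : ℤ) (D : Finset (ℤ × ℤ)) (η : Cfg) : Set (ℤ × ℤ) :=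
  {s | Even (s.1 + s.2) ∧ ∃ v ∈ Ann x r R, v ∉ D ∧ η v = true ∧ Cor v s}

section

variable {x : ℤ × ℤ} {r R : ℤ} {D : Finset (ℤ × ℤ)} {η : Cfg}

theorem KS_even {ω : Cfg} {y : ℤ × ℤ} (h : y ∈ KS D (F0 x r R D η) ω) : Even (y.1 + y.2) := by
  obtain ⟨s, hs, hy⟩ := h
  exact cl_even hs.1 hy

theorem F0_sub {ω : Cfg} {s : ℤ × ℤ} (h : s ∈ F0 x r R D η) : s ∈ KS D (F0 x r R D η) ω :=
  ⟨s, h, ReflTransGen.refl⟩

/-- A square of `D` with a corner in the explored set which is open has both corners in it. -/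
theorem KS_step {ω : Cfg} {v u u' : ℤ × ℤ} (hv : v ∈ D) (ho : ω v = true)
    (hu : u ∈ KS D (F0 x r R D η) ω) (hc : Cor v u) (hc' : Cor v u') (he' : Even (u'.1 + u'.2)) :
    u' ∈ KS D (F0 x r R D η) ω := by
  by_cases hne : u = u'
  · exact hne ▸ hu
  · have hue := KS_even hu
    obtain ⟨s, hs, hy⟩ := hu
    exact ⟨s, hs, ReflTransGen.tail hy (step_of_cor ⟨hv, ho⟩ hc hc' hue he' hne)⟩

/-- After the exploration the rest is separated. -/
theorem sep_rest {S : Finset (ℤ × ℤ)} {K : Set (ℤ × ℤ)}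
    (hK : KS D (F0 x r R D η) (cf D η S) = K) :
    Sep (Ann x r R : Finset (ℤ × ℤ)) (rest D K) (cf D η S) := by
  subst hK
  intro v hv hvr ho a ha u hue hc hca
  rw [mem_rest] at ha
  by_cases hvD : v ∈ D
  · rw [mem_rest] at hvr
    push Not at hvr
    obtain ⟨w, hw, hcw⟩ := hvr hvD
    exact ha.2 u (KS_step hvD ho hw hcw hc hue) hca
  · rw [cf_out hvD] at ho
    exact ha.2 u (F0_sub ⟨hue, v, Finset.mem_coe.1 hv, hvD, ho, hc⟩) hca

/-- A fresh crossing does not meet the explored set. -/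
theorem fresh_sub (hD : D ⊆ Ann x r R) {S : Finset (ℤ × ℤ)} {K : Set (ℤ × ℤ)}
    (hK : KS D (F0 x r R D η) (cf D η S) = K) (h : FreshP x r R D (cf D η S)) :
    CrD x r R (rest D K) (cf D η S) := by
  subst hK
  obtain ⟨s, t, h1, h2, h3, h4, h5⟩ := h
  set ω := cf D η S with hω
  refine ⟨s, t, h1, h2, h3, ?_⟩
  -- no site of the path is explored
  have hno : ∀ u, ReflTransGen (PStep {v | v ∈ Ann x r R ∧ ω v = true}) s u →
      u ∉ KS D (F0 x r R D η) ω := by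
    rintro u hu ⟨f, ⟨hfe, v, hv1, hv2, hv3, hv4⟩, hfu⟩
    have hfu' : ReflTransGen (PStep (Op D ω)) f u := hfu
    have h6 : ReflTransGen (PStep {v | v ∈ Ann x r R ∧ ω v = true}) u f :=
      rtg_symm (H166.rtg_mono (F := Op D ω) (F' := {v | v ∈ Ann x r R ∧ ω v = true})
        (fun w hw => ⟨hD hw.1, hw.2⟩) hfu')
    refine hv2 (h5 v hv1 ?_ f hfe hv4 (hu.trans h6))
    rw [hω, cf_out hv2]
    exact hv3
  have key : ∀ u, ReflTransGen (PStep {v | v ∈ Ann x r R ∧ ω v = true}) s u →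
      ReflTransGen (PStep (Op (rest D (KS D (F0 x r R D η) ω)) ω)) s u := by
    intro u hu
    induction hu with
    | refl => exact ReflTransGen.refl
    | @tail a b hsa hab ih =>
      refine ReflTransGen.tail ih ⟨hab.1, hab.2.1, ?_⟩
      obtain ⟨hc1, hc2⟩ := cor_of_step hab
      have hae := even_rtg h1 hsa
      have hbe : Even (b.1 + b.2) := (FKA.even_step hab).1 hae
      have hqD := h5 _ hab.2.2.1 hab.2.2.2 a hae hc1 hsa
      refine ⟨mem_rest.2 ⟨hqD, fun w hw hcw => ?_⟩, hab.2.2.2⟩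
      exact hno a hsa (KS_step hqD hab.2.2.2 hw hcw hc1 hae)
  exact key t h4

/-- **Fresh crossings**, for a domain in the annulus. -/
theorem fresh_aux {Q α C : ℝ} (hQ : 1 ≤ Q) (hA : ArmDec Q α C) (hr : 1 ≤ r)
    (hrR : r ≤ R) (hD : D ⊆ Ann x r R) (hη : Good η) :
    Pr Q D η {ω | FreshP x r R D ω} ≤ Q ^ 2 * (C * ((r : ℝ) / R) ^ α) := by
  classical
  have hQ0 : 0 < Q := by linarith
  set a := Q ^ 2 * (C * ((r : ℝ) / R) ^ α) with ha
  set k : Cfg → Set (ℤ × ℤ) := KS D (F0 x r R D η) with hk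
  have e1 : a = Ex Q D η (fun _ => a) := (Ex_const hQ0 a).symm
  rw [e1]
  unfold Pr
  rw [Ex_split (α := Set (ℤ × ℤ)) k ({ω | FreshP x r R D ω}.indicator 1),
    Ex_split (α := Set (ℤ × ℤ)) k (fun _ => a)]
  refine Finset.sum_le_sum fun K _ => ?_
  have hsub : rest D K ⊆ D := fun v hv => (mem_rest.1 hv).1
  set I : Cfg → ℝ := {ω | k ω = K}.indicator 1 with hI
  have hInd : Ind (rest D K) I := ind_KS K
  have hI0 : ∀ ω, 0 ≤ I ω := ind_nonneg _
  have hIz : ∀ ω, k ω ≠ K → I ω = 0 := fun ω h =>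
    Set.indicator_of_notMem (show ω ∉ {ω | k ω = K} from h) _
  have h1 : Ex Q D η (fun ω => I ω * {ω | FreshP x r R D ω}.indicator 1 ω) ≤
      Ex Q D η (fun ω => I ω * {ω | CrD x r R (rest D K) ω}.indicator 1 ω) := by
    refine Ex_mono hQ0 fun S hS => ?_
    by_cases h : k (cf D η S) = K
    · refine mul_le_mul_of_nonneg_left ?_ (hI0 _)
      by_cases h2 : FreshP x r R D (cf D η S)
      · rw [Set.indicator_of_mem (show cf D η S ∈ {ω | FreshP x r R D ω} from h2),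
          Set.indicator_of_mem (show cf D η S ∈ {ω | CrD x r R (rest D K) ω} from
            fresh_sub hD h h2)]
      · rw [Set.indicator_of_notMem (show cf D η S ∉ {ω | FreshP x r R D ω} from h2)]
        exact ind_nonneg _ _
    · rw [hIz _ h, zero_mul, zero_mul]
  refine h1.trans ?_
  rw [markov f_markov hQ0 hsub hη hInd]
  refine Ex_mono hQ0 fun S hS => ?_
  by_cases h : k (cf D η S) = K
  · refine mul_le_mul_of_nonneg_left ?_ (hI0 _)
    exact pr_sep hQ hA hr hrR (hsub.trans hD) (f_good.1 D η S hη) (sep_rest h)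
  · rw [hIz _ h, zero_mul, zero_mul]

end

theorem FreshP.congrD {x : ℤ × ℤ} {r R : ℤ} {D D' : Finset (ℤ × ℤ)}
    (h : ∀ v ∈ Ann x r R, v ∈ D → v ∈ D') {ω : Cfg} (hF : FreshP x r R D ω) :
    FreshP x r R D' ω := by
  obtain ⟨s, t, h1, h2, h3, h4, h5⟩ := hF
  exact ⟨s, t, h1, h2, h3, h4, fun v hv ho u he hc hu => h v hv (h5 v hv ho u he hc hu)⟩

/-- **Fresh crossings are unlikely.** -/
theorem fresh_primal {Q α C : ℝ} (hQ : 1 ≤ Q) (hA : ArmDec Q α C) {x : ℤ × ℤ} {r R : ℤ}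
    (hr : 1 ≤ r) (hrR : r ≤ R) (D : Finset (ℤ × ℤ)) {η : Cfg} (hη : Good η) :
    Pr Q D η {ω | FreshP x r R D ω} ≤ Q ^ 2 * (C * ((r : ℝ) / R) ^ α) := by
  classical
  have hQ0 : 0 < Q := by linarith
  have hsub : D ∩ Ann x r R ⊆ D := Finset.inter_subset_left
  have h1 : Pr Q D η {ω | FreshP x r R D ω} ≤ Pr Q D η {ω | FreshP x r R (D ∩ Ann x r R) ω} :=
    Pr_mono hQ0 fun ω hω => FreshP.congrD (fun v hv hvD => Finset.mem_inter.2 ⟨hvD, hv⟩) hω
  refine h1.trans ?_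
  unfold Pr
  rw [f_markov Q (D ∩ Ann x r R) D η _ hQ0 hsub hη]
  refine le_trans (Ex_mono hQ0 fun S _ => ?_) (Ex_const hQ0 _).le
  exact fresh_aux hQ hA hr hrR Finset.inter_subset_right (f_good.1 D η S hη)

/-! ### The dual version -/

theorem mem_Ann_sh {x : ℤ × ℤ} {r R : ℤ} {v : ℤ × ℤ} : v ∈ Ann (FKA.sh x) r R ↔ shi v ∈ Ann x r R := by
  rw [mem_Ann, mem_Ann, mem_Bq_sh, mem_Bq_sh]

theorem rtg_sh {F F' : Set (ℤ × ℤ)} (h : ∀ v ∈ F, FKA.sh v ∈ F') {u v : ℤ × ℤ}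
    (huv : ReflTransGen (PStep F) u v) : ReflTransGen (PStep F') (FKA.sh u) (FKA.sh v) := by
  induction huv with
  | refl => exact ReflTransGen.refl
  | tail _ hst ih => exact ih.tail (step_sh h hst)

theorem rtg_shi {F F' : Set (ℤ × ℤ)} (h : ∀ v ∈ F, shi v ∈ F') {u v : ℤ × ℤ}
    (huv : ReflTransGen (PStep F) u v) : ReflTransGen (PStep F') (shi u) (shi v) := by
  induction huv with
  | refl => exact ReflTransGen.refl
  | tail _ hst ih => exact ih.tail (step_shi h hst)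

theorem cor_shi {v u : ℤ × ℤ} (h : Cor v u) : Cor (shi v) (shi u) := by
  unfold Cor shi at *
  simp only
  omega

theorem fresh_dual {x : ℤ × ℤ} {r R : ℤ} {D : Finset (ℤ × ℤ)} {ω : Cfg}
    (h : FreshD x r R D ω) : FreshP (FKA.sh x) r R (D.image FKA.sh) (du ω) := by
  obtain ⟨s, t, h1, h2, h3, h4, h5⟩ := h
  have ho : ∀ v, du ω v = true ↔ ω (shi v) = false := by
    intro v
    unfold du shi
    simp
  refine ⟨FKA.sh s, FKA.sh t, ?_, by rw [nm_sh]; exact h2, by rw [nm_sh]; exact h3, ?_, ?_⟩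
  · simp only [FKA.sh, Int.even_iff, Int.odd_iff] at *; omega
  · refine rtg_sh (F' := {v | v ∈ Ann (FKA.sh x) r R ∧ du ω v = true}) (fun v hv => ⟨?_, ?_⟩) h4
    · rw [mem_Ann_sh, shi_sh]; exact hv.1
    · rw [ho, shi_sh]; exact hv.2
  · intro v hv hvo u hue hc hu
    rw [mem_Ann_sh] at hv
    rw [ho] at hvo
    have h6 := rtg_shi (F' := {v | v ∈ Ann x r R ∧ ω v = false}) (fun w hw => ⟨mem_Ann_sh.1 hw.1,
      (ho w).1 hw.2⟩) hu
    rw [shi_sh] at h6
    have h7 := h5 (shi v) hv hvo (shi u) (by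
      simp only [shi, Int.even_iff, Int.odd_iff] at *; omega) (cor_shi hc) h6
    rw [Finset.mem_image]
    exact ⟨shi v, h7, sh_shi v⟩

/-- **Fresh dual crossings are unlikely.** -/
theorem fresh_dual_le {Q α C : ℝ} (hQ : 1 ≤ Q) (hA : ArmDec Q α C) {x : ℤ × ℤ} {r R : ℤ}
    (hr : 1 ≤ r) (hrR : r ≤ R) (D : Finset (ℤ × ℤ)) {η : Cfg} (hη : Good η) :
    Pr Q D η {ω | FreshD x r R D ω} ≤ Q ^ 2 * (C * ((r : ℝ) / R) ^ α) := by
  have hQ0 : 0 < Q := by linarith
  refine le_trans ?_ (fresh_primal hQ hA (x := FKA.sh x) hr hrR (D.image FKA.sh) (f_dual.1 η hη))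
  have h1 := f_dual.2 Q D η ({ω | FreshP (FKA.sh x) r R (D.image FKA.sh) ω}.indicator 1) hQ0 hη
  unfold Pr
  refine le_trans ?_ h1.symm.le
  refine Ex_mono hQ0 fun S _ => ?_
  by_cases h : FreshD x r R D (cf D η S)
  · rw [Set.indicator_of_mem (show cf D η S ∈ {ω | FreshD x r R D ω} from h),
      Set.indicator_of_mem (show du (cf D η S) ∈ {ω | FreshP (FKA.sh x) r R (D.image FKA.sh) ω} from
        fresh_dual h)]
    exact le_rfl
  · rw [Set.indicator_of_notMem (show cf D η S ∉ {ω | FreshD x r R D ω} from h)]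
    exact ind_nonneg _ _

/-- Both kinds. -/
theorem fresh_both {Q α C : ℝ} (hQ : 1 ≤ Q) (hA : ArmDec Q α C) {x : ℤ × ℤ} {r R : ℤ}
    (hr : 1 ≤ r) (hrR : r ≤ R) (D : Finset (ℤ × ℤ)) {η : Cfg} (hη : Good η) :
    Pr Q D η {ω | FreshP x r R D ω ∨ FreshD x r R D ω} ≤
      2 * Q ^ 2 * C * ((r : ℝ) / R) ^ α := by
  have hQ0 : 0 < Q := by linarith
  have h1 := fresh_primal hQ hA (x := x) hr hrR D hη
  have h2 := fresh_dual_le hQ hA (x := x) hr hrR D hη
  have h3 : Pr Q D η {ω | FreshP x r R D ω ∨ FreshD x r R D ω} ≤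
      Pr Q D η {ω | FreshP x r R D ω} + Pr Q D η {ω | FreshD x r R D ω} := by
    unfold Pr
    rw [← Ex_add]
    refine Ex_mono hQ0 fun S _ => ?_
    by_cases h : FreshP x r R D (cf D η S)
    · rw [Set.indicator_of_mem (show cf D η S ∈ {ω | FreshP x r R D ω} from h)]
      have := ind_nonneg {ω | FreshD x r R D ω} (cf D η S)
      have h5 : {ω | FreshP x r R D ω ∨ FreshD x r R D ω}.indicator (1 : Cfg → ℝ) (cf D η S) ≤ 1 :=
        ind_le_one _ _
      simp only [Pi.one_apply] at *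
      linarith
    · by_cases h' : FreshD x r R D (cf D η S)
      · rw [Set.indicator_of_mem (show cf D η S ∈ {ω | FreshD x r R D ω} from h')]
        have := ind_nonneg {ω | FreshP x r R D ω} (cf D η S)
        have h5 : {ω | FreshP x r R D ω ∨ FreshD x r R D ω}.indicator (1 : Cfg → ℝ)
          (cf D η S) ≤ 1 := ind_le_one _ _
        simp only [Pi.one_apply] at *
        linarith
      · rw [Set.indicator_of_notMem (show cf D η S ∉ {ω | FreshP x r R D ω ∨ FreshD x r R D ω} from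
          fun h'' => h''.elim h h')]
        exact add_nonneg (ind_nonneg _ _) (ind_nonneg _ _)
  have e : 2 * Q ^ 2 * C * ((r : ℝ) / R) ^ α = Q ^ 2 * (C * ((r : ℝ) / R) ^ α) +
      Q ^ 2 * (C * ((r : ℝ) / R) ^ α) := by ring
  rw [e]
  exact h3.trans (add_le_add h1 h2)

end Vale.Agent.P167.QN
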