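import Vale.Agent.P167.QN.Fresh
import Vale.Agent.P167.H718.Rc2
import Vale.Agent.P167.H192.Inter
import Vale.Agent.P167.H558.Stop2
import Vale.Agent.P167.Fjord.Defs2

/-!
# P167, general `q`, block Q-NF: fresh arms behind an adapted time are unlikely
-/

set_option autoImplicit false
set_option linter.unusedVariables false
set_option linter.unusedSectionVars false

namespace Vale.Agent.P167.QN

open Finset Vale.Agent.P167.FK Vale.Agent.P167.FKA
open Vale.Agent.P145.FB (PStep PConn)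
open Vale.Agent.P167.H259 (f_markov f_fkg f_comp f_comp2)
open Vale.Agent.P167.H558 (StopSet Past StopTime Expl at')
open Vale.Agent.P167.H192 (ed cfg As dq bq rev path isEdge_ahead cfg_true mem_rev mem_dq wires)
open Vale.Agent.P167.H718 (Dq etaQ wE mem_wE)
open Vale.Agent.P167.E6 Vale.Agent.P167.E2
open Relation

/-- **The strong Markov property**, as a bound. -/
theorem ex_stop {Q : ℝ} (hQ : 0 < Q) {D : Finset (ℤ × ℤ)} {η : Cfg} (hη : Good η)
    {K : Cfg → Finset (ℤ × ℤ)} (hK : StopSet K) (hKD : ∀ ω, K ω ⊆ D) {F : Cfg → ℝ} {a : ℝ}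
    (h : ∀ S ⊆ D, Ex Q (D \ K (cf D η S)) (cf D η S) F ≤ a) : Ex Q D η F ≤ a := by
  classical
  have e1 : a = Ex Q D η (fun _ => a) := (Ex_const hQ a).symm
  rw [e1, Ex_split (α := Finset (ℤ × ℤ)) K F, Ex_split (α := Finset (ℤ × ℤ)) K (fun _ => a)]
  refine Finset.sum_le_sum fun K₀ _ => ?_
  have hInd : Ind (D \ K₀) ({ω | K ω = K₀}.indicator 1) := by
    have key : ∀ ω ω' : Cfg, (∀ v, v ∉ D \ K₀ → ω v = ω' v) → K ω = K₀ → K ω' = K₀ := by
      intro ω ω' h1 h2
      rw [← h2]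
      refine hK ω ω' fun i hi => (h1 i fun h3 => ?_).symm
      rw [h2] at hi
      exact (Finset.mem_sdiff.1 h3).2 hi
    intro ω ω' h1
    exact ind_congr (A := fun ω => K ω = K₀)
      ⟨key ω ω' h1, key ω' ω fun v hv => (h1 v hv).symm⟩
  have hI0 : ∀ ω, (0 : ℝ) ≤ ({ω | K ω = K₀}.indicator 1 : Cfg → ℝ) ω := ind_nonneg _
  have hIz : ∀ ω, K ω ≠ K₀ → ({ω | K ω = K₀}.indicator 1 : Cfg → ℝ) ω = 0 := fun ω h =>
    Set.indicator_of_notMem (show ω ∉ {ω | K ω = K₀} from h) _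
  rw [markov f_markov hQ Finset.sdiff_subset hη hInd]
  refine Ex_mono hQ fun S hS => ?_
  by_cases h1 : K (cf D η S) = K₀
  · refine mul_le_mul_of_nonneg_left ?_ (hI0 _)
    rw [← h1]
    exact h S hS
  · rw [hIz _ h1, zero_mul, zero_mul]

section

variable {n : ℕ} {p : ZMod n → ℤ × ℤ} {k : ℕ} {S : Finset (ℤ × ℤ)}

/-- The squares which were read before the time `τ`. -/
noncomputable def rdq (p : ZMod n → ℤ × ℤ) (k : ℕ) (A : Finset (Sym2 (ℤ × ℤ))) (τ : ℕ) :
    Finset (ℤ × ℤ) := (Finset.range τ).image fun j => H192.sq (ahead (run p k A j))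

/-- **A fresh arm behind the time `τ`**, for general `q`. -/
def FArmQ (p : ZMod n → ℤ × ℤ) (k : ℕ) (S : Finset (ℤ × ℤ)) (A : Finset (Sym2 (ℤ × ℤ))) (τ : ℕ)
    (r R : ℤ) : Prop :=
  τ < len p k A ∧
    (FreshP (H192.sq (ahead (run p k A τ))) r R (Dq S p k \ rdq p k A τ) (cfg (wiredOpen p k A)) ∨
      FreshD (H192.sq (ahead (run p k A τ))) r R (Dq S p k \ rdq p k A τ) (cfg (wiredOpen p k A)))

theorem wires_eq : wires p k = ((wE p k : Finset (Sym2 (ℤ × ℤ))) : Set (Sym2 (ℤ × ℤ))) := by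
  ext e
  rw [Finset.mem_coe, mem_wE]
  rfl

theorem dq_eq : dq p k S = Dq S p k := by
  ext v
  rw [mem_dq, H718.mem_Dq', wires_eq, Finset.mem_coe]

theorem bq_eq : bq p k = etaQ p k := by
  unfold bq etaQ
  rw [wires_eq]

theorem run_congr {A A' : Finset (Sym2 (ℤ × ℤ))} (h : wiredOpen p k A = wiredOpen p k A') (j : ℕ) :
    run p k A j = run p k A' j := by
  unfold run
  rw [h]

theorem len_congr {A A' : Finset (Sym2 (ℤ × ℤ))} (h : wiredOpen p k A = wiredOpen p k A') :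
    len p k A = len p k A' := by
  have h1 : run p k A = run p k A' := funext (run_congr h)
  unfold len
  rw [h1]

theorem wO_As {A : Finset (Sym2 (ℤ × ℤ))} (hA : A ⊆ edges S) :
    wiredOpen p k (As S (cfg (wiredOpen p k A))) = wiredOpen p k A := by
  ext e
  rw [H718.mem_wiredOpen, H718.mem_wiredOpen, H192.mem_As]
  constructor
  · rintro (⟨h1, h2⟩ | h1)
    · rw [cfg_true, H192.ed_sq (H192.isEdge_edges h1)] at h2
      exact H718.mem_wiredOpen.1 h2
    · exact Or.inr h1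
  · rintro (h1 | h1)
    · left
      refine ⟨hA h1, ?_⟩
      rw [cfg_true, H192.ed_sq (H192.isEdge_edges (hA h1))]
      exact H718.mem_wiredOpen.2 (Or.inl h1)
    · exact Or.inr h1

/-- The path of the squares model is the path of the edges. -/
theorem path_run {A : Finset (Sym2 (ℤ × ℤ))} (hA : A ⊆ edges S) (j : ℕ) :
    path (dq p k S) (bq p k) (H192.me (cs p)) (cfg (wiredOpen p k A)) j = H192.me (run p k A j) := by
  rw [← H192.E6path, wO_As hA]
  rfl

theorem hdv_run {A : Finset (Sym2 (ℤ × ℤ))} (hA : A ⊆ edges S) (j : ℕ) :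
    hdv (path (dq p k S) (bq p k) (H192.me (cs p)) (cfg (wiredOpen p k A)) j) =
      H192.sq (ahead (run p k A j)) := by
  rw [path_run hA, H192.hdv_me]

theorem rev_rdq {A : Finset (Sym2 (ℤ × ℤ))} (hA : A ⊆ edges S) (τ : ℕ) :
    dq p k S \ rev (dq p k S) (bq p k) (H192.me (cs p)) τ (cfg (wiredOpen p k A)) =
      Dq S p k \ rdq p k A τ := by
  rw [← dq_eq]
  ext v
  rw [Finset.mem_sdiff, Finset.mem_sdiff, mem_rev]
  unfold rdq
  rw [Finset.mem_image]
  constructor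
  · rintro ⟨h1, h2⟩
    refine ⟨h1, ?_⟩
    rintro ⟨j, hj, h3⟩
    exact h2 ⟨h1, j, Finset.mem_range.1 hj, by rw [hdv_run hA]; exact h3⟩
  · rintro ⟨h1, h2⟩
    refine ⟨h1, ?_⟩
    rintro ⟨-, j, hj, h3⟩
    exact h2 ⟨j, Finset.mem_range.2 hj, by rw [← hdv_run hA]; exact h3⟩

/-- The event in the squares model. -/
def Ev (p : ZMod n → ℤ × ℤ) (k : ℕ) (S : Finset (ℤ × ℤ)) (Qp : Finset (Sym2 (ℤ × ℤ)) → ℕ → Prop)
    (r R : ℤ) (ω : Cfg) : Prop :=
  ∃ τ, Qp (As S ω) τ ∧ (∀ i < τ, ¬ Qp (As S ω) i) ∧ τ < len p k (As S ω) ∧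
    (FreshP (hdv (path (dq p k S) (bq p k) (H192.me (cs p)) ω τ)) r R
        (dq p k S \ rev (dq p k S) (bq p k) (H192.me (cs p)) τ ω) ω ∨
      FreshD (hdv (path (dq p k S) (bq p k) (H192.me (cs p)) ω τ)) r R
        (dq p k S \ rev (dq p k S) (bq p k) (H192.me (cs p)) τ ω) ω)

theorem ev_of {Qp : Finset (Sym2 (ℤ × ℤ)) → ℕ → Prop}
    (hQp : ∀ A ⊆ edges S, ∀ A' ⊆ edges S, ∀ i, (∀ j ≤ i, run p k A j = run p k A' j) →
      Qp A i → Qp A' i) {r R : ℤ} {A : Finset (Sym2 (ℤ × ℤ))} (hA : A ⊆ edges S)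
    (h : ∃ τ, Qp A τ ∧ (∀ i < τ, ¬ Qp A i) ∧ FArmQ p k S A τ r R) :
    Ev p k S Qp r R (cfg (wiredOpen p k A)) := by
  obtain ⟨τ, h1, h2, h3, h4⟩ := h
  have hw := wO_As (p := p) (k := k) hA
  have hs := H192.As_subset S (cfg (wiredOpen p k A))
  refine ⟨τ, ?_, fun i hi hc => h2 i hi ?_, by rw [len_congr hw]; exact h3, ?_⟩
  · exact hQp A hA _ hs τ (fun j _ => (run_congr hw j).symm) h1
  · exact hQp _ hs A hA i (fun j _ => run_congr hw j) hc
  · rw [hdv_run hA, rev_rdq hA]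
    exact h4

open Classical in
/-- **Fresh arms are unlikely.** -/
theorem farmQ {q α C : ℝ} (hq : 1 ≤ q) (hA : ArmDec (√q) α C) (hp : IsPolygon p)
    (hS : Encloses p S) {Qp : Finset (Sym2 (ℤ × ℤ)) → ℕ → Prop}
    (hQp : ∀ A ⊆ edges S, ∀ A' ⊆ edges S, ∀ i, (∀ j ≤ i, run p k A j = run p k A' j) →
      Qp A i → Qp A' i) {r R : ℤ} (hr : 1 ≤ r) (hrR : r ≤ R) :
    Final.mean q p k S (fun A => if ∃ τ, Qp A τ ∧ (∀ i < τ, ¬ Qp A i) ∧ FArmQ p k S A τ r R
      then 1 else 0) ≤ 2 * q * C * ((r : ℝ) / R) ^ α := by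
  have hq0 : 0 < q := by linarith
  have hQ : 1 ≤ √q := by
    rw [show (1 : ℝ) = √1 by simp]
    exact Real.sqrt_le_sqrt hq
  have hQ0 : 0 < √q := by linarith
  have hsq : √q ^ 2 = q := Real.sq_sqrt hq0.le
  -- to the squares
  have h1 : Final.mean q p k S (fun A => if ∃ τ, Qp A τ ∧ (∀ i < τ, ¬ Qp A i) ∧
      FArmQ p k S A τ r R then 1 else 0) ≤
      Final.mean q p k S (fun A => {ω | Ev p k S Qp r R ω}.indicator 1 (cfg (wiredOpen p k A))) := by
    unfold Final.mean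
    have hw0 : ∀ A, 0 ≤ Final.weight q p k S A := by
      intro A
      have hs0 : 0 ≤ Final.selfDual q := by unfold Final.selfDual; positivity
      have hs1 : 0 ≤ 1 - Final.selfDual q := by
        unfold Final.selfDual
        rw [sub_nonneg, div_le_one (by positivity)]
        linarith
      unfold Final.weight
      positivity
    refine div_le_div_of_nonneg_right (Finset.sum_le_sum fun A hAm => ?_)
      (Finset.sum_nonneg fun A _ => hw0 A)
    refine mul_le_mul_of_nonneg_left ?_ (hw0 A)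
    beta_reduce
    split_ifs with hc
    · rw [Set.indicator_of_mem (show cfg (wiredOpen p k A) ∈ {ω | Ev p k S Qp r R ω} from
        ev_of hQp (Finset.mem_powerset.1 hAm) hc)]
      exact le_rfl
    · exact ind_nonneg _ _
  refine h1.trans ?_
  rw [H718.mean_eq_Ex hq0 hp hS ({ω | Ev p k S Qp r R ω}.indicator 1), ← dq_eq, ← bq_eq]
  have hη : Good (bq p k) := by rw [bq_eq]; exact H718.good_etaQ
  set D := dq p k S with hD
  set η := bq p k with hηd
  set e := H192.me (cs p) with he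
  -- the stopping time
  set N : ℕ := (edges S).powerset.sup (len p k) with hN
  have hlen : ∀ A ⊆ edges S, len p k A ≤ N := fun A hA =>
    Finset.le_sup (f := len p k) (Finset.mem_powerset.2 hA)
  have hrun : ∀ (ω : Cfg) (j : ℕ), H192.me (run p k (As S ω) j) = path D η e ω j := by
    intro ω j
    rw [hD, hηd, he, ← H192.E6path]
    rfl
  have hP : ∀ i, Past (rev D η e i) (fun ω : Cfg => Qp (As S ω) i) := by
    intro i ω ω' h
    have h1 : ∀ j ≤ i, run p k (As S ω') j = run p k (As S ω) j := fun j hj =>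
      H192.me_inj (by rw [hrun, hrun]; exact H192.path_eq_of_rev h j hj)
    exact propext ⟨hQp _ (H192.As_subset S ω') _ (H192.As_subset S ω) i h1,
      hQp _ (H192.As_subset S ω) _ (H192.As_subset S ω') i fun j hj => (h1 j hj).symm⟩
  have hex : ∀ ω : Cfg, ∃ i, Qp (As S ω) i ∨ N ≤ i := fun ω => ⟨N, Or.inr le_rfl⟩
  set κ : Cfg → ℕ := fun ω => Nat.find (hex ω) with hκ
  have hst : StopTime (rev D η e) κ := by
    refine H192.expl_rev.first (Q := fun i ω => Qp (As S ω) i ∨ N ≤ i) (fun i => ?_)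
      (fun ω => Nat.find_spec (hex ω)) (fun ω i hi => Nat.find_min (hex ω) hi)
    exact (hP i).comp (fun q => q ∨ N ≤ i)
  have hK : StopSet (at' (rev D η e) κ) := H192.expl_rev.at_stop hst
  refine ex_stop hQ0 hη hK (fun ω => H192.rev_subset _ _) fun T hT => ?_
  set ω₀ := cf D η T with hω₀
  have hg₀ : Good ω₀ := f_good.1 _ _ _ hη
  have h5 := fresh_both hQ hA (x := hdv (path D η e ω₀ (κ ω₀))) hr hrR
    (D \ at' (rev D η e) κ ω₀) hg₀
  rw [hsq] at h5
  refine le_trans ?_ h5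
  unfold Pr
  refine Ex_mono hQ0 fun T' hT' => ?_
  set ω := cf (D \ at' (rev D η e) κ ω₀) ω₀ T' with hω
  -- the same past
  have h6 : ∀ i ∈ at' (rev D η e) κ ω₀, ω i = ω₀ i := fun i hi =>
    cf_out fun h => (Finset.mem_sdiff.1 h).2 hi
  have h7 : κ ω = κ ω₀ := hst ω₀ ω h6
  have h8 : at' (rev D η e) κ ω = at' (rev D η e) κ ω₀ := hK ω₀ ω h6
  have h9 : hdv (path D η e ω (κ ω)) = hdv (path D η e ω₀ (κ ω₀)) := by
    rw [h7]
    exact congrArg hdv (H192.path_eq_of_rev h6 (κ ω₀) le_rfl)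
  by_cases hE : Ev p k S Qp r R ω
  · rw [Set.indicator_of_mem (show ω ∈ {ω | Ev p k S Qp r R ω} from hE)]
    obtain ⟨τ, g1, g2, g3, g4⟩ := hE
    have hκτ : κ ω = τ := by
      rw [hκ]
      refine (Nat.find_eq_iff (hex ω)).2 ⟨Or.inl g1, fun i hi h => ?_⟩
      rcases h with h | h
      · exact g2 i hi h
      · have := hlen _ (H192.As_subset S ω)
        omega
    rw [← hκτ] at g4
    have e1 : rev (dq p k S) (bq p k) (H192.me (cs p)) (κ ω) ω = at' (rev D η e) κ ω₀ := by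
      rw [← h8]
      rfl
    rw [e1] at g4
    have e2 : hdv (path (dq p k S) (bq p k) (H192.me (cs p)) ω (κ ω)) =
        hdv (path D η e ω₀ (κ ω₀)) := h9
    rw [e2] at g4
    rw [Set.indicator_of_mem (show ω ∈ {ω | FreshP (hdv (path D η e ω₀ (κ ω₀))) r R
      (D \ at' (rev D η e) κ ω₀) ω ∨ FreshD (hdv (path D η e ω₀ (κ ω₀))) r R
      (D \ at' (rev D η e) κ ω₀) ω} from g4)]
  · rw [Set.indicator_of_notMem (show ω ∉ {ω | Ev p k S Qp r R ω} from hE)]
    exact ind_nonneg _ _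

end

end Vale.Agent.P167.QN
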