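import Vale.Agent.P167.QN.DetL
import Vale.Agent.P167.Fjord.Bridge

/-!
# P167, general `q`, block Q-NF: from the kappa data to a fresh arm
-/

set_option autoImplicit false
set_option linter.unusedVariables false

open Set Metric

namespace Vale.Agent.P167.QN

open Vale.Agent.P167.FK Vale.Agent.P167.FKA
open Vale.Agent.P167.H192 (cfg)
open Vale.Agent.P167.H718 (Dq)
open Vale.Agent.P167.H167.Q (mem_Bq)
open Vale.Agent.P167.E6 Vale.Agent.P167.E2 Vale.Agent.P167.Fjord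

variable {n : ℕ} {p : ZMod n → ℤ × ℤ} {S : Finset (ℤ × ℤ)} {k : ℕ} {A : Finset (Sym2 (ℤ × ℤ))}
variable {δ r ε : ℝ}

/-- **From a gate to a fresh arm.** -/
theorem farm_of_gateQ (hL : S_leftQ) (hR : S_rightQ) (hδ : 0 < δ) (hp : IsPolygon p)
    (hS : Encloses p S) (h0 : 0 < k) (hk : k + 1 < n) (hA : A ⊆ edges S) {τ m t : ℕ}
    {C : ℕ → Medial}
    (hτt : τ < t) (ht : t < len p k A) (hε : 0 ≤ ε)
    (hC : ∀ b ≤ m, dist (Pp δ (C b)) (Pp δ (run p k A τ)) ≤ 2 * ε)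
    (hgate : ((GLe p k S A τ m C ∨ GRi p k S A τ m C) ∧
        ¬ JoinedIn (Om δ S \ (pl p k δ A '' Icc 0 (τ + 1) ∪ Seg δ m C)) (Pp δ (run p k A t))
          (bT p k δ)) ∨
      ((GWi p k S A τ m C ∨ GFr p k S A τ m C) ∧
        ¬ JoinedIn (Om δ S \ (pl p k δ A '' Icc 0 (τ + 1) ∪ Seg δ m C ∪ Bit δ (C m)))
          (Pp δ (run p k A t)) (bT p k δ)))
    {R₁ : ℝ} (hfar : R₁ ≤ dist (Pp δ (run p k A t)) (Pp δ (run p k A τ)))
    {r' R' : ℤ} (hr' : 6 * ε / δ + 3 ≤ r') (hR' : (R' : ℝ) ≤ R₁ / (2 * δ) - 3 / 2)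
    (hrR : r' < R') :
    FArmQ p k S A τ r' R' := by
  have hr1 : 1 ≤ r' := by
    have h1 : (1 : ℝ) ≤ r' := by
      have : 0 ≤ 6 * ε / δ := by positivity
      linarith
    exact_mod_cast h1
  have hBx : ∀ i ≤ m, H192.sq (ahead (C i)) ∈ Bq (H192.sq (ahead (run p k A τ))) r' := by
    intro i hi
    have h6 := (nm_bounds hδ (C i) (run p k A τ)).1
    have h7 := dist_mid_Pp hδ.le (C i)
    have h8 := dist_mid_Pp hδ.le (run p k A τ)
    have h9 := hC i hi
    have h10 := dist_triangle4 (mid δ (C i)) (Pp δ (C i)) (Pp δ (run p k A τ))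
      (mid δ (run p k A τ))
    rw [dist_comm (Pp δ (run p k A τ))] at h10
    have h12 : dist (mid δ (C i)) (mid δ (run p k A τ)) ≤ 2 * ε + δ := by linarith
    have h13 : 2 * dist (mid δ (C i)) (mid δ (run p k A τ)) / δ ≤ 6 * ε / δ + 2 := by
      rw [div_le_iff₀ hδ]
      have : (6 * ε / δ + 2) * δ = 6 * ε + 2 * δ := by field_simp
      rw [this]
      linarith
    have h14 : nm (H192.sq (ahead (C i)) - H192.sq (ahead (run p k A τ))) ≤ r' - 1 := by
      have h15 : ((nm (H192.sq (ahead (C i)) - H192.sq (ahead (run p k A τ))) : ℤ) : ℝ) ≤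
          ((r' - 1 : ℤ) : ℝ) := by
        push_cast
        linarith
      exact_mod_cast h15
    rw [nm_abs] at h14
    rw [mem_Bq]
    simp only [Prod.fst_sub, Prod.snd_sub] at h14
    omega
  have hfar' : R' + 1 ≤ nm (H192.sq (ahead (run p k A t)) - H192.sq (ahead (run p k A τ))) := by
    have h6 := (nm_bounds hδ (run p k A t) (run p k A τ)).2
    have h7 := dist_mid_Pp hδ.le (run p k A t)
    have h8 := dist_mid_Pp hδ.le (run p k A τ)
    have h10 := dist_triangle4 (Pp δ (run p k A t)) (mid δ (run p k A t))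
      (mid δ (run p k A τ)) (Pp δ (run p k A τ))
    rw [dist_comm (Pp δ (run p k A t)) (mid δ (run p k A t))] at h10
    have h12 : R₁ / (2 * δ) - 1 / 2 ≤
        dist (mid δ (run p k A t)) (mid δ (run p k A τ)) / (2 * δ) := by
      rw [le_div_iff₀ (by positivity)]
      have : (R₁ / (2 * δ) - 1 / 2) * (2 * δ) = R₁ - δ := by field_simp
      rw [this]
      linarith
    have h13 : ((R' + 1 : ℤ) : ℝ) ≤ R₁ / (2 * δ) - 1 / 2 := by
      push_cast
      linarith
    exact_mod_cast h13.trans (h12.trans h6)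
  refine ⟨by omega, ?_⟩
  rcases hgate with ⟨h6 | h6, h7⟩ | ⟨h6 | h6, h7⟩
  · exact Or.inr (hL hδ hp hS h0 hk hA τ m t C hτt ht r' R' hr1 hrR hBx hfar' (Or.inl ⟨h6, h7⟩))
  · exact Or.inl (hR hδ hp hS h0 hk hA τ m t C hτt ht r' R' hr1 hrR hBx hfar' (Or.inl ⟨h6, h7⟩))
  · exact Or.inr (hL hδ hp hS h0 hk hA τ m t C hτt ht r' R' hr1 hrR hBx hfar' (Or.inr ⟨h6, h7⟩))
  · exact Or.inl (hR hδ hp hS h0 hk hA τ m t C hτt ht r' R' hr1 hrR hBx hfar' (Or.inr ⟨h6, h7⟩))

/-- **The bridge**: the output of the continuum half gives a fresh arm behind the first time of a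
gate between two pieces, or to the boundary. -/
theorem bridgeQ (hL : S_leftQ) (hR : S_rightQ) (hδ : 0 < δ) (hp : IsPolygon p)
    (hS : Encloses p S) (h0 : 0 < k) (hk : k + 1 < n) (hA : A ⊆ edges S)
    (hg1 : ∀ c : Medial, c.1 ∈ verts S → fc c ∉ S → (δ : ℂ) * cpt (3 / 8) c ∈ frontier (Om δ S))
    (hg2 : IsPreconnected (frontier (Om δ S))) (hg3 : IsCompact (frontier (Om δ S)))
    (hg4 : aM p δ ∈ frontier (Om δ S))
    {R η : ℝ} (hG : Gated δ p k S A R η ε) (hηR : η ≤ R) (hr : 0 < r) (hrη : 16 * r ≤ η)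
    (hεη : 16 * ε ≤ η) (hδε : δ ≤ ε)
    {r' R' : ℤ} (hr' : 6 * ε / δ + 3 ≤ r') (hR' : (R' : ℝ) ≤ (3 / 2 * R) / (2 * δ) - 3 / 2)
    (hrR : r' < R') :
    ∃ l ≤ pcA p k δ r A (len p k A - 1),
      (∃ j ≤ pcA p k δ r A (len p k A - 1), ∃ τ, QL p k S δ r ε j l A τ ∧
        (∀ i < τ, ¬ QL p k S δ r ε j l A i) ∧ FArmQ p k S A τ r' R') ∨
      ∃ τ, QW p k S δ r ε l A τ ∧ (∀ i < τ, ¬ QW p k S δ r ε l A i) ∧
        FArmQ p k S A τ r' R' := by
  classical
  obtain ⟨z₀, σ, t, κ, hK, hσt, htl, hfz, hbz, hwall, v, m, C, hv, hCε, hcase⟩ := hG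
  have hε : 0 < ε := hδ.trans_le hδε
  have hη : 0 < η := by linarith
  have hRpos : 0 < R := hη.trans_le hηR
  have hv0 : (0 : ℝ) ≤ v := Nat.cast_nonneg _
  have hvt : v + 1 < t := by
    have : (v : ℝ) + 1 < t := by linarith
    exact_mod_cast this
  have ht1 : 1 ≤ t := by omega
  have hfpl : pl p k δ A (t : ℝ) = Pp δ (run p k A (t - 1)) := pl_nat' ht1 (by omega)
  rw [hfpl] at hfz hK
  have hopen := isOpen_Om hδ S
  have hdisj : Disjoint (Om δ S) (frontier (Om δ S)) := by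
    rw [hopen.frontier_eq]
    exact disjoint_sdiff_right
  -- the position at time `v`
  have hzero : C 0 = run p k A v := by
    rcases hcase with ⟨h | h, -⟩ | ⟨h | h, -⟩ <;> exact h.zero
  have hz₀v : dist (Pp δ (run p k A v)) z₀ ≤ ε := by
    have := hCε 0 (Nat.zero_le _)
    rw [dist_comm, hzero] at this
    exact this
  have hC2 : ∀ b ≤ m, dist (Pp δ (C b)) (Pp δ (run p k A v)) ≤ 2 * ε := by
    intro b hb
    have h1 := hCε b hb
    have h2 := dist_triangle_right (Pp δ (C b)) (Pp δ (run p k A v)) z₀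
    have h3 : dist (Pp δ (C b)) z₀ ≤ ε := by rw [dist_comm]; exact h1
    linarith
  -- positions in the piece of `v`
  have hpiece : ∀ τ, pcA p k δ r A τ = pcA p k δ r A v →
      dist (Pp δ (run p k A τ)) z₀ ≤ ε + 2 * r + δ := by
    intro τ hτ
    have h1 := pcA_near hδ.le hr hτ
    have h2 := dist_triangle (Pp δ (run p k A τ)) (Pp δ (run p k A v)) z₀
    linarith
  -- conclusion, once we have the separation at the first time
  have final : ∀ (τ m' : ℕ) (C' : ℕ → Medial), τ ≤ v → pcA p k δ r A τ = pcA p k δ r A v →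
      (∀ b ≤ m', dist (Pp δ (C' b)) (Pp δ (run p k A τ)) ≤ 2 * ε) →
      (((GLe p k S A τ m' C' ∨ GRi p k S A τ m' C') ∧
        ¬ JoinedIn (Om δ S \ (pl p k δ A '' Icc 0 (τ + 1) ∪ Seg δ m' C'))
          (Pp δ (run p k A (t - 1))) (bT p k δ)) ∨
      ((GWi p k S A τ m' C' ∨ GFr p k S A τ m' C') ∧
        ¬ JoinedIn (Om δ S \ (pl p k δ A '' Icc 0 (τ + 1) ∪ Seg δ m' C' ∪ Bit δ (C' m')))
          (Pp δ (run p k A (t - 1))) (bT p k δ))) →
      FArmQ p k S A τ r' R' := by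
    intro τ m' C' hτ hpcτ hC' hgate
    have h1 := hpiece τ hpcτ
    have h2 := dist_triangle_right (Pp δ (run p k A (t - 1))) (Pp δ (run p k A τ)) z₀
    refine farm_of_gateQ hL hR hδ hp hS h0 hk hA (by omega) (by omega) hε.le hC' hgate
      (R₁ := 3 / 2 * R) ?_ hr' hR' hrR
    have h3 := dist_triangle (Pp δ (run p k A (t - 1))) (Pp δ (run p k A τ)) z₀
    rw [dist_comm z₀] at hfz
    linarith
  have hvlen : v ≤ len p k A - 1 := by omega
  refine ⟨pcA p k δ r A v, pc_mono hvlen, ?_⟩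
  rcases hcase with ⟨hgt, hκ⟩ | ⟨hgt, hκ⟩
  · -- loops
    left
    obtain ⟨u, hu, hCu⟩ : ∃ u < v, C m = run p k A u := by
      rcases hgt with h | h <;> exact h.past
    have hex : ∃ i, QL p k S δ r ε (pcA p k δ r A u) (pcA p k δ r A v) A i :=
      ⟨v, rfl, m, C, hgt, hC2, u, hu, hCu, rfl⟩
    refine ⟨pcA p k δ r A u, pc_mono (by omega), Nat.find hex, Nat.find_spec hex,
      fun i hi => Nat.find_min hex hi, ?_⟩
    set τ := Nat.find hex with hτ
    have hτv : τ ≤ v := Nat.find_min' hex ⟨rfl, m, C, hgt, hC2, u, hu, hCu, rfl⟩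
    obtain ⟨hpcτ, m', C', hgt', hC', u', hu', hCu', hpcu'⟩ := Nat.find_spec hex
    rw [← hτ] at hpcτ hgt' hC' hu'
    refine final τ m' C' hτv hpcτ hC' (Or.inl ⟨hgt', ?_⟩)
    have hτv' : (τ : ℝ) ≤ v := by exact_mod_cast hτv
    have huv' : (u : ℝ) ≤ v := by exact_mod_cast hu.le
    have hu'v' : (u' : ℝ) ≤ τ := by exact_mod_cast hu'.le
    have hzero' : C' 0 = run p k A τ := by rcases hgt' with h | h <;> exact h.zero
    -- kappa
    have e1 : κ (Pp δ (run p k A v)) = κ (Pp δ (run p k A τ)) :=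
      kap_const hp hS (by omega) hA hδ.le hK hr hv (by linarith) (by omega) (by omega) hpcτ.symm hz₀v
        (by linarith)
    have hz₀u : dist (Pp δ (run p k A u)) z₀ ≤ ε := by
      have := hCε m le_rfl
      rw [dist_comm, hCu] at this
      exact this
    have e2 : κ (Pp δ (run p k A u)) = κ (Pp δ (run p k A u')) :=
      kap_const hp hS (by omega) hA hδ.le hK hr (by linarith) (by linarith) (by omega) (by omega)
        hpcu'.symm hz₀u (by linarith)
    have hne : κ (Pp δ (run p k A u')) ≠ κ (Pp δ (run p k A τ)) := by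
      rw [← e1, ← e2]
      have : κ (Pp δ (C m)) ≠ κ (Pp δ (C 0)) := hκ
      rwa [hCu, hzero] at this
    have hsub : Seg δ m' C' ⊆ closedBall z₀ R := by
      refine Seg_subset fun i hi => ?_
      have h1 := hC' i hi
      have h2 := hpiece τ hpcτ
      have h3 := dist_triangle (Pp δ (C' i)) (Pp δ (run p k A τ)) z₀
      linarith
    have hm1 : Pp δ (run p k A u') ∈ pl p k δ A '' Icc 0 ((τ : ℝ) + 1) ∩ Seg δ m' C' := by
      refine ⟨⟨(u' : ℝ) + 1, ⟨by positivity, by linarith⟩, pl_nat (by omega)⟩, ?_⟩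
      rw [← hCu']
      exact mem_Seg le_rfl
    have hm2 : Pp δ (run p k A τ) ∈ pl p k δ A '' Icc 0 ((τ : ℝ) + 1) ∩ Seg δ m' C' := by
      refine ⟨⟨(τ : ℝ) + 1, ⟨by positivity, le_rfl⟩, pl_nat (by omega)⟩, ?_⟩
      rw [← hzero']
      exact start_mem_Seg
    have hsep := hK.sep (pl p k δ A '' Icc 0 ((τ : ℝ) + 1))
      (fun x hx => Or.inr (image_mono (Icc_subset_Icc le_rfl (by linarith)) hx))
      (past_prop _ _).1 (past_prop _ _).2 (Seg δ m' C') hsub (Seg_prop _ _).1 (Seg_prop _ _).2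
      _ hm1 _ hm2 hne
    intro hj
    exact hsep (hj.mono fun x hx => hx.2)
  · -- walls
    right
    have hex : ∃ i, QW p k S δ r ε (pcA p k δ r A v) A i := ⟨v, rfl, m, C, hgt, hC2⟩
    refine ⟨Nat.find hex, Nat.find_spec hex, fun i hi => Nat.find_min hex hi, ?_⟩
    set τ := Nat.find hex with hτ
    have hτv : τ ≤ v := Nat.find_min' hex ⟨rfl, m, C, hgt, hC2⟩
    obtain ⟨hpcτ, m', C', hgt', hC'⟩ := Nat.find_spec hex
    rw [← hτ] at hpcτ hgt' hC'
    refine final τ m' C' hτv hpcτ hC' (Or.inr ⟨hgt', ?_⟩)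
    have hτv' : (τ : ℝ) ≤ v := by exact_mod_cast hτv
    have hzero' : C' 0 = run p k A τ := by rcases hgt' with h | h <;> exact h.zero
    -- kappa
    have e1 : κ (Pp δ (run p k A v)) = κ (Pp δ (run p k A τ)) :=
      kap_const hp hS (by omega) hA hδ.le hK hr hv (by linarith) (by omega) (by omega) hpcτ.symm hz₀v
        (by linarith)
    -- the boundary points
    have hfr : ∀ (τ m : ℕ) (C : ℕ → Medial), (GWi p k S A τ m C ∨ GFr p k S A τ m C) →
        (δ : ℂ) * cpt (3 / 8) (C m) ∈ frontier (Om δ S) := by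
      intro τ m C h
      rcases h with h | h
      · refine hg1 _ (verts_last hp hS hA h.toPre fun _ => ?_) h.out
        obtain ⟨e, -, he⟩ := h.last
        exact Or.inl ⟨e, he⟩
      · exact hg1 _ (verts_last hp hS hA h.toPre fun h0 => Or.inr (h.last h0).1) h.out
    have hb1 : dist ((δ : ℂ) * cpt (3 / 8) (C m)) z₀ ≤ η := by
      have h1 := dist_bit hδ.le (C m)
      have h2 : dist (Pp δ (C m)) z₀ ≤ ε := by
        rw [dist_comm]; exact hCε m le_rfl
      have h3 := dist_triangle ((δ : ℂ) * cpt (3 / 8) (C m)) (Pp δ (C m)) z₀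
      linarith
    have hb2 : ∀ i ≤ m', dist (Pp δ (C' i)) z₀ ≤ η - δ := by
      intro i hi
      have h1 := hC' i hi
      have h2 := hpiece τ hpcτ
      have h3 := dist_triangle (Pp δ (C' i)) (Pp δ (run p k A τ)) z₀
      linarith
    have hb3 : dist ((δ : ℂ) * cpt (3 / 8) (C' m')) z₀ ≤ η := by
      have h1 := dist_bit hδ.le (C' m')
      have h2 := hb2 m' le_rfl
      have h3 := dist_triangle ((δ : ℂ) * cpt (3 / 8) (C' m')) (Pp δ (C' m')) z₀
      linarith
    have e2 : κ ((δ : ℂ) * cpt (3 / 8) (C m)) = κ ((δ : ℂ) * cpt (3 / 8) (C' m')) :=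
      hwall _ ⟨hfr v m C hgt, mem_closedBall.2 hb1⟩ _ ⟨hfr τ m' C' hgt', mem_closedBall.2 hb3⟩
    have hne : κ ((δ : ℂ) * cpt (3 / 8) (C' m')) ≠ κ (Pp δ (run p k A τ)) := by
      rw [← e1, ← e2]
      have : κ ((δ : ℂ) * cpt (3 / 8) (C m)) ≠ κ (Pp δ (C 0)) := hκ
      rwa [hzero] at this
    have hsub : Seg δ m' C' ∪ Bit δ (C' m') ⊆ closedBall z₀ R := by
      refine union_subset (Seg_subset fun i hi => ?_) (Bit_subset ?_ ?_)
      · have := hb2 i hi
        linarith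
      · have := hb2 m' le_rfl
        linarith
      · linarith
    have hcon : IsCompact (Seg δ m' C' ∪ Bit δ (C' m')) ∧
        IsPreconnected (Seg δ m' C' ∪ Bit δ (C' m')) := by
      refine ⟨(Seg_prop _ _).1.union (Bit_prop _).1, ?_⟩
      exact IsPreconnected.union (Pp δ (C' m')) (mem_Seg le_rfl) (left_mem_segment _ _ _)
        (Seg_prop _ _).2 (Bit_prop _).2
    have hG1 : IsCompact (frontier (Om δ S) ∪ pl p k δ A '' Icc 0 ((τ : ℝ) + 1)) ∧
        IsPreconnected (frontier (Om δ S) ∪ pl p k δ A '' Icc 0 ((τ : ℝ) + 1)) := by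
      refine ⟨hg3.union (past_prop _ _).1, ?_⟩
      refine IsPreconnected.union (aM p δ) hg4 ⟨0, ⟨le_rfl, by positivity⟩, pl_zero δ⟩ hg2
        (past_prop _ _).2
    have hm1 : (δ : ℂ) * cpt (3 / 8) (C' m') ∈
        (frontier (Om δ S) ∪ pl p k δ A '' Icc 0 ((τ : ℝ) + 1)) ∩
          (Seg δ m' C' ∪ Bit δ (C' m')) :=
      ⟨Or.inl (hfr τ m' C' hgt'), Or.inr (right_mem_segment _ _ _)⟩
    have hm2 : Pp δ (run p k A τ) ∈
        (frontier (Om δ S) ∪ pl p k δ A '' Icc 0 ((τ : ℝ) + 1)) ∩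
          (Seg δ m' C' ∪ Bit δ (C' m')) := by
      refine ⟨Or.inr ⟨(τ : ℝ) + 1, ⟨by positivity, le_rfl⟩, pl_nat (by omega)⟩, Or.inl ?_⟩
      rw [← hzero']
      exact start_mem_Seg
    have hsep := hK.sep (frontier (Om δ S) ∪ pl p k δ A '' Icc 0 ((τ : ℝ) + 1))
      (union_subset_union_right _ (image_mono (Icc_subset_Icc le_rfl (by linarith))))
      hG1.1 hG1.2 _ hsub hcon.1 hcon.2 _ hm1 _ hm2 hne
    intro hj
    refine hsep (hj.mono ?_)
    rintro x ⟨hx1, hx2⟩ hx3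
    rcases hx3 with (h | h) | h
    · exact disjoint_left.1 hdisj hx1 h
    · exact hx2 (Or.inl (Or.inl h))
    · rcases h with h | h
      · exact hx2 (Or.inl (Or.inr h))
      · exact hx2 (Or.inr h)

end Vale.Agent.P167.QN
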