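import Vale.Agent.P167.QN.Farm

/-!
# P167, general `q`, block Q-NF: the deterministic statements for gates

With general `q` the fresh arm must have a fresh cluster: `FreshD` for the left gates, `FreshP` for
the right gates (`QN/Fresh.lean`).
-/

set_option autoImplicit false

open Set Metric

namespace Vale.Agent.P167.QN

open Vale.Agent.P167.FK Vale.Agent.P167.FKA
open Vale.Agent.P167.H192 (cfg)
open Vale.Agent.P167.H718 (Dq)
open Vale.Agent.P167.E6 Vale.Agent.P167.E2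
open Vale.Agent.P167.Fjord (GLe GRi GWi GFr Seg Bit bT)

/-- **Left gates** (helper174): behind a left gate the closed cluster of the annulus along the
interface is fresh. -/
def S_leftQ : Prop :=
  ∀ {n : ℕ} {p : ZMod n → ℤ × ℤ} {S : Finset (ℤ × ℤ)} {k : ℕ} {A : Finset (Sym2 (ℤ × ℤ))}
    {δ : ℝ}, 0 < δ → IsPolygon p → Encloses p S → 0 < k → k + 1 < n → A ⊆ edges S →
    ∀ (τ m t : ℕ) (C : ℕ → Medial), τ < t → t < len p k A →
    ∀ r R : ℤ, 1 ≤ r → r < R →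
    (∀ i ≤ m, H192.sq (ahead (C i)) ∈ Bq (H192.sq (ahead (run p k A τ))) r) →
    R + 1 ≤ nm (H192.sq (ahead (run p k A t)) - H192.sq (ahead (run p k A τ))) →
    (GLe p k S A τ m C ∧ ¬ JoinedIn (Om δ S \ (pl p k δ A '' Icc 0 (τ + 1) ∪ Seg δ m C))
        ((δ : ℂ) * cpt (1 / 4) (run p k A t)) (bT p k δ) ∨
      GWi p k S A τ m C ∧ ¬ JoinedIn (Om δ S \ (pl p k δ A '' Icc 0 (τ + 1) ∪ Seg δ m C ∪
        Bit δ (C m))) ((δ : ℂ) * cpt (1 / 4) (run p k A t)) (bT p k δ)) →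
    FreshD (H192.sq (ahead (run p k A τ))) r R (Dq S p k \ rdq p k A τ) (cfg (wiredOpen p k A))

/-- **Right gates** (helper714): behind a right gate the open cluster of the annulus along the
interface is fresh. -/
def S_rightQ : Prop :=
  ∀ {n : ℕ} {p : ZMod n → ℤ × ℤ} {S : Finset (ℤ × ℤ)} {k : ℕ} {A : Finset (Sym2 (ℤ × ℤ))}
    {δ : ℝ}, 0 < δ → IsPolygon p → Encloses p S → 0 < k → k + 1 < n → A ⊆ edges S →
    ∀ (τ m t : ℕ) (C : ℕ → Medial), τ < t → t < len p k A →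
    ∀ r R : ℤ, 1 ≤ r → r < R →
    (∀ i ≤ m, H192.sq (ahead (C i)) ∈ Bq (H192.sq (ahead (run p k A τ))) r) →
    R + 1 ≤ nm (H192.sq (ahead (run p k A t)) - H192.sq (ahead (run p k A τ))) →
    (GRi p k S A τ m C ∧ ¬ JoinedIn (Om δ S \ (pl p k δ A '' Icc 0 (τ + 1) ∪ Seg δ m C))
        ((δ : ℂ) * cpt (1 / 4) (run p k A t)) (bT p k δ) ∨
      GFr p k S A τ m C ∧ ¬ JoinedIn (Om δ S \ (pl p k δ A '' Icc 0 (τ + 1) ∪ Seg δ m C ∪
        Bit δ (C m))) ((δ : ℂ) * cpt (1 / 4) (run p k A t)) (bT p k δ)) →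
    FreshP (H192.sq (ahead (run p k A τ))) r R (Dq S p k \ rdq p k A τ) (cfg (wiredOpen p k A))

end Vale.Agent.P167.QN
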