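import Vale.Agent.P167.H167.Q.Mix

/-!
# P167, general `q`, block Q-NF: crossings of a separated domain in an annulus

If `D` is a set of squares of the annulus and all open squares of the annulus outside of `D` have no
primal corner in common with `D`, the probability of a primal crossing of the annulus by open squares
of `D` is small, uniformly in `D` and in the outside configuration. The connection of the inside and
of the outside of the annulus through the squares which are not in `D` costs at most a factor `Q ^ 2`.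
-/

set_option autoImplicit false
set_option linter.unusedVariables false
set_option linter.unusedSectionVars false

namespace Vale.Agent.P167.QN

open Finset Vale.Agent.P167.FK Vale.Agent.P167.FKA
open Vale.Agent.P145.FB (PStep PConn)
open Vale.Agent.P167.H259 (f_markov f_fkg f_comp f_comp2)
open Vale.Agent.P167.H167.Q (even_cor pa_ne_pb step_pab mem_Bq bq_mono nm_of_notMem nm_of_mem
  cf_insert)
open Relation

/-- The squares of the annulus `(x; r, R)`. -/
noncomputable def Ann (x : ℤ × ℤ) (r R : ℤ) : Finset (ℤ × ℤ) := Bq x R \ Bq x r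

theorem mem_Ann {x v : ℤ × ℤ} {r R : ℤ} : v ∈ Ann x r R ↔ v ∈ Bq x R ∧ v ∉ Bq x r := by
  unfold Ann
  rw [Finset.mem_sdiff]

/-- `η` in `B`, open outside of `B`. -/
def up (B : Finset (ℤ × ℤ)) (η : Cfg) : Cfg := fun v => if v ∈ B then η v else true

theorem up_mem {B : Finset (ℤ × ℤ)} {η : Cfg} {v : ℤ × ℤ} (h : v ∈ B) : up B η v = η v := by
  simp [up, h]

theorem up_notMem {B : Finset (ℤ × ℤ)} {η : Cfg} {v : ℤ × ℤ} (h : v ∉ B) : up B η v = true := by
  simp [up, h]

theorem up_eq (B : Finset (ℤ × ℤ)) (η : Cfg) :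
    up B η = cf B eta1 (B.filter fun v => η v = true) := by
  funext v
  by_cases h : v ∈ B
  · simp [up, cf, h]
  · simp [up, cf, h, eta1]

theorem good_up (B : Finset (ℤ × ℤ)) (η : Cfg) : Good (up B η) := by
  rw [up_eq]
  exact f_good.1 _ _ _ f_good.2.2

theorem cf_mem {D : Finset (ℤ × ℤ)} {η : Cfg} {S : Finset (ℤ × ℤ)} {v : ℤ × ℤ} (h : v ∈ D) :
    cf D η S v = decide (v ∈ S) := by simp [cf, h]

theorem rtg_symm' {F : Set (ℤ × ℤ)} {u v : ℤ × ℤ} (h : ReflTransGen (PStep F) u v) :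
    ReflTransGen (PStep F) v u := rtg_symm h

theorem even_rtg {F : Set (ℤ × ℤ)} {u v : ℤ × ℤ} (hu : Even (u.1 + u.2))
    (h : ReflTransGen (PStep F) u v) : Even (v.1 + v.2) := by
  induction h with
  | refl => exact hu
  | tail _ h ih => exact (FKA.even_step h).1 ih

/-- A path with one more square. -/
theorem rtg_insert {G : Set (ℤ × ℤ)} {a u v : ℤ × ℤ} (hu : Even (u.1 + u.2))
    (h : ReflTransGen (PStep (insert a G)) u v) :
    ReflTransGen (PStep G) u v ∨
      (ReflTransGen (PStep G) u (pa a) ∧ ReflTransGen (PStep G) (pb a) v) ∨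
      (ReflTransGen (PStep G) u (pb a) ∧ ReflTransGen (PStep G) (pa a) v) := by
  induction h with
  | refl => exact Or.inl ReflTransGen.refl
  | @tail y y' huy hst ih =>
    have hye := even_rtg hu huy
    have hye' : Even (y'.1 + y'.2) := (FKA.even_step hst).1 hye
    by_cases hG : (min y.1 y'.1, min y.2 y'.2) ∈ G
    · have hst' : PStep G y y' := ⟨hst.1, hst.2.1, hG⟩
      rcases ih with h1 | ⟨h1, h2⟩ | ⟨h1, h2⟩
      · exact Or.inl (h1.tail hst')
      · exact Or.inr (Or.inl ⟨h1, h2.tail hst'⟩)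
      · exact Or.inr (Or.inr ⟨h1, h2.tail hst'⟩)
    · have hq : (min y.1 y'.1, min y.2 y'.2) = a := by
        rcases hst.2.2 with h | h
        · exact h
        · exact absurd h hG
      obtain ⟨hc1, hc2⟩ := cor_of_step hst
      rw [hq] at hc1 hc2
      have hne : y ≠ y' := by
        intro h
        have := hst.1
        rw [h] at this
        omega
      rcases even_cor hc1 hye with h3 | h3 <;> rcases even_cor hc2 hye' with h4 | h4
      · exact absurd (h3.trans h4.symm) hne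
      · rcases ih with h1 | ⟨h1, h2⟩ | ⟨h1, h2⟩
        · exact Or.inr (Or.inl ⟨h3 ▸ h1, h4 ▸ ReflTransGen.refl⟩)
        · exact Or.inr (Or.inl ⟨h1, h4 ▸ ReflTransGen.refl⟩)
        · exact Or.inl (h4 ▸ h1)
      · rcases ih with h1 | ⟨h1, h2⟩ | ⟨h1, h2⟩
        · exact Or.inr (Or.inr ⟨h3 ▸ h1, h4 ▸ ReflTransGen.refl⟩)
        · exact Or.inl (h4 ▸ h1)
        · exact Or.inr (Or.inr ⟨h1, h4 ▸ ReflTransGen.refl⟩)
      · exact absurd (h3.trans h4.symm) hne

/-! ### The inside and the outside of the annulus -/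

theorem nm_abs {v : ℤ × ℤ} {R : ℤ} : nm v ≤ R ↔ -R ≤ v.1 ∧ v.1 ≤ R ∧ -R ≤ v.2 ∧ v.2 ≤ R :=
  nm_le_iff

/-- The sites of a box are joined in the box. -/
theorem inner_aux {F : Set (ℤ × ℤ)} {x : ℤ × ℤ} {r : ℤ} (hF : ∀ v ∈ Bq x r, v ∈ F) {c : ℤ × ℤ}
    {s : ℤ} (hs : s = 1 ∨ s = -1) (hc : nm (c - x) ≤ r) (hc1 : nm (c + (s, 0) - x) ≤ r)
    (hc2 : nm (c + (0, 1) - x) ≤ r) :
    ∀ (N : ℕ) (u : ℤ × ℤ), nm (u - x) ≤ r → (u.1 + u.2 - (c.1 + c.2)) % 2 = 0 →
      (-(N : ℤ) ≤ u.1 - c.1 ∧ u.1 - c.1 ≤ N ∧ -(N : ℤ) ≤ u.2 - c.2 ∧ u.2 - c.2 ≤ N) →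
      ReflTransGen (PStep F) u c := by
  rw [nm_abs] at hc hc1 hc2
  simp only [Prod.fst_sub, Prod.snd_sub, Prod.fst_add, Prod.snd_add] at hc hc1 hc2
  have hst : ∀ u v : ℤ × ℤ, nm (u - x) ≤ r → nm (v - x) ≤ r → (v.1 = u.1 + 1 ∨ v.1 = u.1 - 1) →
      (v.2 = u.2 + 1 ∨ v.2 = u.2 - 1) → PStep F u v := by
    intro u v hu hv h1 h2
    refine ⟨h1, h2, hF _ ?_⟩
    rw [mem_Bq]
    rw [nm_abs] at hu hv
    simp only [Prod.fst_sub, Prod.snd_sub] at hu hv
    simp only
    omega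
  intro N
  induction N with
  | zero =>
    intro u _ _ h
    have : u = c := Prod.ext (by push_cast at h; omega) (by push_cast at h; omega)
    rw [this]
  | succ N ih =>
    intro u hu hpar hN
    push_cast at hN
    have hu' := hu
    rw [nm_abs] at hu'
    simp only [Prod.fst_sub, Prod.snd_sub] at hu'
    by_cases hN0 : N = 0
    · subst hN0
      by_cases h0 : u = c
      · rw [h0]
      · have h1 : u.1 ≠ c.1 ∨ u.2 ≠ c.2 := by
          by_contra hcon
          push Not at hcon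
          exact h0 (Prod.ext hcon.1 hcon.2)
        refine ReflTransGen.single (hst u c hu (by
          rw [nm_abs]; simp only [Prod.fst_sub, Prod.snd_sub]; omega) ?_ ?_)
        · push_cast at hN; omega
        · push_cast at hN; omega
    · have h1 : ∃ s1 : ℤ, (s1 = 1 ∨ s1 = -1) ∧ -r ≤ u.1 + s1 - x.1 ∧ u.1 + s1 - x.1 ≤ r ∧
          -(N : ℤ) ≤ u.1 + s1 - c.1 ∧ u.1 + s1 - c.1 ≤ N := by
        rcases lt_trichotomy u.1 c.1 with h | h | h
        · exact ⟨1, Or.inl rfl, by omega⟩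
        · exact ⟨s, hs, by omega⟩
        · exact ⟨-1, Or.inr rfl, by omega⟩
      have h2 : ∃ s2 : ℤ, (s2 = 1 ∨ s2 = -1) ∧ -r ≤ u.2 + s2 - x.2 ∧ u.2 + s2 - x.2 ≤ r ∧
          -(N : ℤ) ≤ u.2 + s2 - c.2 ∧ u.2 + s2 - c.2 ≤ N := by
        rcases lt_trichotomy u.2 c.2 with h | h | h
        · exact ⟨1, Or.inl rfl, by omega⟩
        · exact ⟨1, Or.inl rfl, by omega⟩
        · exact ⟨-1, Or.inr rfl, by omega⟩
      obtain ⟨s1, a1, a2, a3, a4, a5⟩ := h1
      obtain ⟨s2, b1, b2, b3, b4, b5⟩ := h2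
      have hw : nm ((u.1 + s1, u.2 + s2) - x) ≤ r := by
        rw [nm_abs]
        simp only [Prod.fst_sub, Prod.snd_sub]
        omega
      refine ReflTransGen.head (hst u (u.1 + s1, u.2 + s2) hu hw (by simp only; omega)
        (by simp only; omega)) (ih _ hw (by simp only; omega) (by simp only; omega))

/-- The even sites of a box are joined in the box. -/
theorem inner_conn {F : Set (ℤ × ℤ)} {x : ℤ × ℤ} {r : ℤ} (hr : 1 ≤ r) (hF : ∀ v ∈ Bq x r, v ∈ F)
    {u v : ℤ × ℤ} (hu : Even (u.1 + u.2)) (hv : Even (v.1 + v.2)) (hur : nm (u - x) ≤ r)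
    (hvr : nm (v - x) ≤ r) : ReflTransGen (PStep F) u v := by
  rw [Int.even_iff] at hu hv
  have key : ∀ u : ℤ × ℤ, (u.1 + u.2) % 2 = 0 → nm (u - x) ≤ r →
      ReflTransGen (PStep F) u (x.1 + (x.1 + x.2) % 2, x.2) := by
    intro u hu hur
    have hur' := hur
    rw [nm_abs] at hur'
    simp only [Prod.fst_sub, Prod.snd_sub] at hur'
    have hm : (x.1 + x.2) % 2 = 0 ∨ (x.1 + x.2) % 2 = 1 := by omega
    refine inner_aux hF (s := if (x.1 + x.2) % 2 = 0 then 1 else -1) ?_ ?_ ?_ ?_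
      (2 * r).toNat u hur ?_ ?_
    · rcases hm with h | h <;> simp [h]
    · rw [nm_abs]
      simp only [Prod.fst_sub, Prod.snd_sub]
      omega
    · rw [nm_abs]
      simp only [Prod.fst_sub, Prod.snd_sub, Prod.fst_add, Prod.snd_add]
      rcases hm with h | h
      · simp only [h, if_true]; omega
      · simp only [h, show ¬ ((1 : ℤ) = 0) by norm_num, if_false]; omega
    · rw [nm_abs]
      simp only [Prod.fst_sub, Prod.snd_sub, Prod.fst_add, Prod.snd_add]
      omega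
    · simp only
      omega
    · simp only
      omega
  exact (key u hu hur).trans (rtg_symm (key v hv hvr))

/-- The even sites which are at distance at least `R` are joined outside of the box. -/
theorem outer_conn {F : Set (ℤ × ℤ)} {x : ℤ × ℤ} {R : ℤ} (hF : ∀ v, v ∉ Bq x R → v ∈ F)
    {u v : ℤ × ℤ} (hu : Even (u.1 + u.2)) (hv : Even (v.1 + v.2)) (hur : R ≤ nm (u - x))
    (hvr : R ≤ nm (v - x)) : ReflTransGen (PStep F) u v := by
  rw [le_nm_iff] at hur hvr
  simp only [Prod.fst_sub, Prod.snd_sub] at hur hvr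
  refine outside_conn (a := x.1 - R) (b := x.1 + R - 1) (c := x.2 - R) (d := x.2 + R - 1)
    (fun w hw => hF w ?_) hu hv ?_ ?_
  · rw [mem_Bq]; omega
  · omega
  · omega

/-! ### The connections in a separated domain -/

section

variable {x : ℤ × ℤ} {r R : ℤ} {D : Finset (ℤ × ℤ)} {η : Cfg}

/-- The open squares of the annulus which are not in `D`. -/
def G3 (x : ℤ × ℤ) (r R : ℤ) (D : Finset (ℤ × ℤ)) (η : Cfg) : Set (ℤ × ℤ) :=
  {v | v ∈ Ann x r R ∧ v ∉ D ∧ η v = true}

/-- All squares off `D` are open outside of the annulus and closed in the annulus. -/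
noncomputable def bas (x : ℤ × ℤ) (r R : ℤ) : Cfg := up (Ann x r R) fun _ => false

/-- There is a link. -/
def Lk (x : ℤ × ℤ) (r R : ℤ) (D : Finset (ℤ × ℤ)) (η : Cfg) : Prop :=
  ∃ i o : ℤ × ℤ, Even (i.1 + i.2) ∧ nm (i - x) ≤ r ∧ R ≤ nm (o - x) ∧
    ReflTransGen (PStep (G3 x r R D η)) i o

/-- Connected up to the link. -/
def PCL (x : ℤ × ℤ) (r R : ℤ) (D : Finset (ℤ × ℤ)) (η ω : Cfg) (i0 o0 u z : ℤ × ℤ) : Prop :=
  PC ω u z ∨ (Lk x r R D η ∧ ((PC ω u i0 ∧ PC ω o0 z) ∨ (PC ω u o0 ∧ PC ω i0 z)))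

theorem PCL.tail {ω : Cfg} {i0 o0 u y y' : ℤ × ℤ} (h : PCL x r R D η ω i0 o0 u y)
    (hs : PC ω y y') : PCL x r R D η ω i0 o0 u y' := by
  rcases h with h | ⟨h, h1 | h1⟩
  · exact Or.inl (h.trans hs)
  · exact Or.inr ⟨h, Or.inl ⟨h1.1, h1.2.trans hs⟩⟩
  · exact Or.inr ⟨h, Or.inr ⟨h1.1, h1.2.trans hs⟩⟩

theorem io_of_notMem {q y : ℤ × ℤ} (hq : q ∉ Ann x r R) (hc : Cor q y) :
    nm (y - x) ≤ r ∨ R ≤ nm (y - x) := by
  rw [mem_Ann] at hq
  by_cases h1 : q ∈ Bq x R
  · left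
    have h2 : q ∈ Bq x r := by
      by_contra h3
      exact hq ⟨h1, h3⟩
    exact nm_of_mem h2 hc
  · right
    exact nm_of_notMem h1 hc

variable (hr : 1 ≤ r) (hrR : r ≤ R) (hD : D ⊆ Ann x r R)
include hr hrR hD

theorem bas_out {S : Finset (ℤ × ℤ)} {v : ℤ × ℤ} (hv : v ∉ Ann x r R) :
    cf D (bas x r R) S v = true := by
  rw [cf_out fun h => hv (hD h), bas, up_notMem hv]

theorem inn_PC {S : Finset (ℤ × ℤ)} {u v : ℤ × ℤ} (hu : Even (u.1 + u.2)) (hv : Even (v.1 + v.2))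
    (hur : nm (u - x) ≤ r) (hvr : nm (v - x) ≤ r) : PC (cf D (bas x r R) S) u v :=
  inner_conn hr (fun w hw => bas_out hr hrR hD fun h => (mem_Ann.1 h).2 hw) hu hv hur hvr

theorem out_PC {S : Finset (ℤ × ℤ)} {u v : ℤ × ℤ} (hu : Even (u.1 + u.2)) (hv : Even (v.1 + v.2))
    (hur : R ≤ nm (u - x)) (hvr : R ≤ nm (v - x)) : PC (cf D (bas x r R) S) u v :=
  outer_conn (fun w hw => bas_out hr hrR hD fun h => hw (mem_Ann.1 h).1) hu hv hur hvr

/-- A site which is reached and not near `D` is on the inside or on the outside. -/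
theorem io_of_PC {S : Finset (ℤ × ℤ)} {w y : ℤ × ℤ} (h : PC (cf D (bas x r R) S) w y)
    (hw : (∃ a ∈ D, Cor a w) ∨ nm (w - x) ≤ r ∨ R ≤ nm (w - x)) (hy : ∀ a ∈ D, ¬ Cor a y) :
    nm (y - x) ≤ r ∨ R ≤ nm (y - x) := by
  unfold PC at h
  rcases ReflTransGen.cases_tail h with h1 | ⟨z, -, hst⟩
  · rw [← h1] at hw
    rcases hw with ⟨a, ha, hc⟩ | hw
    · exact absurd hc (hy a ha)
    · exact hw
  · obtain ⟨-, hc2⟩ := cor_of_step hst
    have hop : cf D (bas x r R) S (min z.1 y.1, min z.2 y.2) = true := hst.2.2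
    by_cases hq : (min z.1 y.1, min z.2 y.2) ∈ Ann x r R
    · exfalso
      by_cases hqD : (min z.1 y.1, min z.2 y.2) ∈ D
      · exact hy _ hqD hc2
      · rw [cf_out hqD, bas, up_mem hq] at hop
        exact Bool.noConfusion hop
    · exact io_of_notMem hq hc2

/-- Passing through the squares which are not in `D`. -/
theorem PCL.thru {S : Finset (ℤ × ℤ)} {i0 o0 u z y : ℤ × ℤ} (hi0 : Even (i0.1 + i0.2))
    (ho0 : Even (o0.1 + o0.2)) (hi : nm (i0 - x) ≤ r) (ho : R ≤ nm (o0 - x))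
    (hz : Even (z.1 + z.2)) (hzio : nm (z - x) ≤ r ∨ R ≤ nm (z - x))
    (hyio : nm (y - x) ≤ r ∨ R ≤ nm (y - x))
    (h : PCL x r R D η (cf D (bas x r R) S) i0 o0 u z)
    (hzy : ReflTransGen (PStep (G3 x r R D η)) z y) :
    PCL x r R D η (cf D (bas x r R) S) i0 o0 u y := by
  have hy : Even (y.1 + y.2) := even_rtg hz hzy
  rcases hzio with h1 | h1 <;> rcases hyio with h2 | h2
  · exact h.tail (inn_PC hr hrR hD hz hy h1 h2)
  · have hL : Lk x r R D η := ⟨z, y, hz, h1, h2, hzy⟩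
    have e1 := inn_PC hr hrR hD (S := S) hz hi0 h1 hi
    have e2 := out_PC hr hrR hD (S := S) ho0 hy ho h2
    rcases h with h | ⟨-, h3 | h3⟩
    · exact Or.inr ⟨hL, Or.inl ⟨h.trans e1, e2⟩⟩
    · refine Or.inl (h3.1.trans ?_)
      have e3 : PC (cf D (bas x r R) S) i0 z := rtg_symm e1
      have e4 : PC (cf D (bas x r R) S) z o0 := rtg_symm h3.2
      exact e3.trans (e4.trans e2)
    · exact Or.inl (h3.1.trans e2)
  · have hL : Lk x r R D η := ⟨y, z, hy, h2, h1, rtg_symm hzy⟩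
    have e1 := out_PC hr hrR hD (S := S) hz ho0 h1 ho
    have e2 := inn_PC hr hrR hD (S := S) hi0 hy hi h2
    rcases h with h | ⟨-, h3 | h3⟩
    · exact Or.inr ⟨hL, Or.inr ⟨h.trans e1, e2⟩⟩
    · exact Or.inl (h3.1.trans e2)
    · refine Or.inl (h3.1.trans ?_)
      have e3 : PC (cf D (bas x r R) S) o0 z := rtg_symm e1
      have e4 : PC (cf D (bas x r R) S) z i0 := rtg_symm h3.2
      exact e3.trans (e4.trans e2)
  · exact h.tail (out_PC hr hrR hD hz hy h1 h2)

/-- **The connections**: in a separated domain only a link is added. -/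
theorem pc_link (hsep : Sep (Ann x r R : Finset (ℤ × ℤ)) D η) {S : Finset (ℤ × ℤ)}
    {i0 o0 u v : ℤ × ℤ} (hi0 : Even (i0.1 + i0.2)) (ho0 : Even (o0.1 + o0.2))
    (hi : nm (i0 - x) ≤ r) (ho : R ≤ nm (o0 - x)) (hue : Even (u.1 + u.2))
    (hu : (∃ a ∈ D, Cor a u) ∨ nm (u - x) ≤ r ∨ R ≤ nm (u - x))
    (hv : (∃ a ∈ D, Cor a v) ∨ nm (v - x) ≤ r ∨ R ≤ nm (v - x))
    (h : PC (cf D (up (Ann x r R) η) S) u v) :
    PCL x r R D η (cf D (bas x r R) S) i0 o0 u v := by
  have key : ∀ y, PC (cf D (up (Ann x r R) η) S) u y →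
      PCL x r R D η (cf D (bas x r R) S) i0 o0 u y ∨
      ((∀ a ∈ D, ¬ Cor a y) ∧ ∃ z : ℤ × ℤ, Even (z.1 + z.2) ∧
        (nm (z - x) ≤ r ∨ R ≤ nm (z - x)) ∧ PCL x r R D η (cf D (bas x r R) S) i0 o0 u z ∧
        ReflTransGen (PStep (G3 x r R D η)) z y) := by
    intro y hy
    unfold PC at hy
    induction hy with
    | refl => exact Or.inl (Or.inl ReflTransGen.refl)
    | @tail y y' huy hst ih =>
      have hye := even_rtg hue huy
      have hye' : Even (y'.1 + y'.2) := (FKA.even_step hst).1 hye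
      obtain ⟨hc1, hc2⟩ := cor_of_step hst
      obtain ⟨q, hq⟩ : ∃ q : ℤ × ℤ, q = (min y.1 y'.1, min y.2 y'.2) := ⟨_, rfl⟩
      have hop : cf D (up (Ann x r R) η) S q = true := by
        have := hst.2.2
        rw [← hq] at this
        exact this
      rw [← hq] at hc1 hc2
      by_cases hqB : q ∈ Ann x r R
      · by_cases hqD : q ∈ D
        · -- a square of the domain
          rcases ih with ih | ⟨ih, -⟩
          · refine Or.inl (ih.tail (ReflTransGen.single ⟨hst.1, hst.2.1, ?_⟩))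
            show cf D (bas x r R) S _ = true
            rw [← hq, cf_mem hqD]
            rwa [cf_mem hqD] at hop
          · exact absurd hc1 (ih q hqD)
        · -- a square which is not in the domain
          rw [cf_out hqD, up_mem hqB] at hop
          have hno : ∀ a ∈ D, ¬ Cor a y := fun a ha =>
            hsep q (Finset.mem_coe.2 hqB) hqD hop a ha y hye hc1
          have hno' : ∀ a ∈ D, ¬ Cor a y' := fun a ha =>
            hsep q (Finset.mem_coe.2 hqB) hqD hop a ha y' hye' hc2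
          have hst3 : PStep (G3 x r R D η) y y' := by
            refine ⟨hst.1, hst.2.1, ?_⟩
            rw [← hq]
            exact ⟨hqB, hqD, hop⟩
          right
          refine ⟨hno', ?_⟩
          rcases ih with ih | ⟨-, z, h1, h2, h3, h4⟩
          · refine ⟨y, hye, ?_, ih, ReflTransGen.single hst3⟩
            rcases ih with h | ⟨-, h | h⟩
            · exact io_of_PC hr hrR hD h hu hno
            · exact io_of_PC hr hrR hD h.2 (Or.inr (Or.inr ho)) hno
            · exact io_of_PC hr hrR hD h.2 (Or.inr (Or.inl hi)) hno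
          · exact ⟨z, h1, h2, h3, h4.tail hst3⟩
      · -- an outer square
        have hs' : PC (cf D (bas x r R) S) y y' := by
          refine ReflTransGen.single ⟨hst.1, hst.2.1, ?_⟩
          show cf D (bas x r R) S _ = true
          rw [← hq]
          exact bas_out hr hrR hD hqB
        left
        rcases ih with ih | ⟨-, z, h1, h2, h3, h4⟩
        · exact ih.tail hs'
        · exact (PCL.thru hr hrR hD hi0 ho0 hi ho h1 h2 (io_of_notMem hqB hc1) h3 h4).tail hs'
  rcases key v h with h1 | ⟨h1, z, h2, h3, h4, h5⟩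
  · exact h1
  · refine PCL.thru hr hrR hD hi0 ho0 hi ho h2 h3 ?_ h4 h5
    rcases hv with ⟨a, ha, hc⟩ | hv
    · exact absurd hc (h1 a ha)
    · exact hv

omit hr hrR in
theorem bas_le {S : Finset (ℤ × ℤ)} (v : ℤ × ℤ) (h : cf D (bas x r R) S v = true) :
    cf D (up (Ann x r R) η) S v = true := by
  by_cases hvD : v ∈ D
  · rw [cf_mem hvD] at h ⊢
    exact h
  · rw [cf_out hvD] at h ⊢
    by_cases hvB : v ∈ Ann x r R
    · rw [bas, up_mem hvB] at h
      exact Bool.noConfusion h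
    · rw [up_notMem hvB]

/-- The converse, with a link. -/
theorem pc_of_link (hL : Lk x r R D η) {S : Finset (ℤ × ℤ)}
    {i0 o0 u v : ℤ × ℤ} (hi0 : Even (i0.1 + i0.2)) (ho0 : Even (o0.1 + o0.2))
    (hi : nm (i0 - x) ≤ r) (ho : R ≤ nm (o0 - x))
    (h : PCL x r R D η (cf D (bas x r R) S) i0 o0 u v) :
    PC (cf D (up (Ann x r R) η) S) u v := by
  have hm : ∀ {u v : ℤ × ℤ}, PC (cf D (bas x r R) S) u v → PC (cf D (up (Ann x r R) η) S) u v :=
    fun h => H259.PC_mono (fun v hv => bas_le hD v hv) h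
  obtain ⟨i, o, h1, h2, h3, h4⟩ := hL
  have h5 : Even (o.1 + o.2) := even_rtg h1 h4
  have h6 : PC (cf D (up (Ann x r R) η) S) i o := by
    refine H166.rtg_mono (fun w hw => ?_) h4
    show cf D (up (Ann x r R) η) S w = true
    rw [cf_out hw.2.1, up_mem hw.1]
    exact hw.2.2
  have h7 : PC (cf D (up (Ann x r R) η) S) i0 o0 :=
    (hm (inn_PC hr hrR hD hi0 h1 hi h2)).trans (h6.trans (hm (out_PC hr hrR hD h5 ho0 h3 ho)))
  rcases h with h | ⟨-, h | h⟩
  · exact hm h
  · exact (hm h.1).trans (h7.trans (hm h.2))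
  · have h8 : PC (cf D (up (Ann x r R) η) S) o0 i0 := rtg_symm h7
    exact (hm h.1).trans (h8.trans (hm h.2))

end

end Vale.Agent.P167.QN
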