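import Vale.Agent.P167.QN.Link

/-!
# P167, general `q`, block Q-NF: the link costs at most a factor `Q ^ 2`
-/

set_option autoImplicit false
set_option linter.unusedVariables false
set_option linter.unusedSectionVars false

namespace Vale.Agent.P167.QN

open Finset Vale.Agent.P167.FK Vale.Agent.P167.FKA
open Vale.Agent.P145.FB (PStep PConn)
open Vale.Agent.P167.H259 (f_markov f_fkg f_comp f_comp2)
open Vale.Agent.P167.H167.Q (even_cor pa_ne_pb step_pab mem_Bq bq_mono nm_of_notMem nm_of_mem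
  cf_insert)
open Relation

/-- Comparison of the weights. -/
theorem ex_ratio {Q K c : ℝ} (hQ : 0 < Q) (hc : 0 < c) (hK : 0 ≤ K) {D : Finset (ℤ × ℤ)}
    {η η' : Cfg}
    (h1 : ∀ S ⊆ D, c * Q ^ LD D (cf D η' S) ≤ Q ^ LD D (cf D η S))
    (h2 : ∀ S ⊆ D, Q ^ LD D (cf D η S) ≤ c * K * Q ^ LD D (cf D η' S)) {F : Cfg → ℝ}
    (hF0 : ∀ ω, 0 ≤ F ω) (hF : ∀ S ⊆ D, F (cf D η S) = F (cf D η' S)) :
    Ex Q D η F ≤ K * Ex Q D η' F := by
  have hZ : 0 < Zq Q D η := Zq_pos hQ D η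
  have hZ' : 0 < Zq Q D η' := Zq_pos hQ D η'
  have e1 : c * Zq Q D η' ≤ Zq Q D η := by
    unfold Zq
    rw [Finset.mul_sum]
    exact Finset.sum_le_sum fun S hS => h1 S (Finset.mem_powerset.1 hS)
  have e2 : ∑ S ∈ D.powerset, Q ^ LD D (cf D η S) * F (cf D η S) ≤
      c * K * ∑ S ∈ D.powerset, Q ^ LD D (cf D η' S) * F (cf D η' S) := by
    rw [Finset.mul_sum]
    refine Finset.sum_le_sum fun S hS => ?_
    rw [hF S (Finset.mem_powerset.1 hS), ← mul_assoc]
    exact mul_le_mul_of_nonneg_right (h2 S (Finset.mem_powerset.1 hS)) (hF0 _)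
  have e3 : 0 ≤ ∑ S ∈ D.powerset, Q ^ LD D (cf D η' S) * F (cf D η' S) :=
    Finset.sum_nonneg fun S _ => mul_nonneg (by positivity) (hF0 _)
  unfold Ex
  rw [div_le_iff₀ hZ, mul_comm K, mul_assoc, div_mul_eq_mul_div, le_div_iff₀ hZ']
  calc (∑ S ∈ D.powerset, Q ^ LD D (cf D η S) * F (cf D η S)) * Zq Q D η' ≤
      (c * K * ∑ S ∈ D.powerset, Q ^ LD D (cf D η' S) * F (cf D η' S)) * Zq Q D η' :=
        mul_le_mul_of_nonneg_right e2 hZ'.le
    _ = (∑ S ∈ D.powerset, Q ^ LD D (cf D η' S) * F (cf D η' S)) * (K * (c * Zq Q D η')) := by ring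
    _ ≤ (∑ S ∈ D.powerset, Q ^ LD D (cf D η' S) * F (cf D η' S)) * (K * Zq Q D η) :=
        mul_le_mul_of_nonneg_left (mul_le_mul_of_nonneg_left e1 hK) e3

section

variable {x : ℤ × ℤ} {r R : ℤ} {D : Finset (ℤ × ℤ)} {η : Cfg}
variable (hr : 1 ≤ r) (hrR : r ≤ R) (hD : D ⊆ Ann x r R)
include hr hrR hD

open Classical in
/-- The numbers of the loops with and without the link. -/
theorem LD_link (hsep : Sep (Ann x r R : Finset (ℤ × ℤ)) D η) (hL : Lk x r R D η)
    {i0 o0 : ℤ × ℤ} (hi0 : Even (i0.1 + i0.2)) (ho0 : Even (o0.1 + o0.2))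
    (hi : nm (i0 - x) ≤ r) (ho : R ≤ nm (o0 - x)) (S : Finset (ℤ × ℤ)) (hS : S ⊆ D) :
    (LD D (cf D (up (Ann x r R) η) S) : ℤ) - LD D (cf D (bas x r R) S) -
      2 * (if PC (cf D (bas x r R) S) i0 o0 then 1 else 0) =
    (LD D (cf D (up (Ann x r R) η) ∅) : ℤ) - LD D (cf D (bas x r R) ∅) -
      2 * (if PC (cf D (bas x r R) ∅) i0 o0 then 1 else 0) := by
  induction S using Finset.induction_on with
  | empty => rfl
  | @insert a S ha ih =>
    have haD : a ∈ D := hS (Finset.mem_insert_self _ _)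
    have hSD : S ⊆ D := fun v hv => hS (Finset.mem_insert_of_mem hv)
    have ih' := ih hSD
    rw [← ih']
    have hcl : ∀ η : Cfg, cf D η S a = false := fun η => by simp [cf, haD, ha]
    have hg1 : Good (cf D (up (Ann x r R) η) S) := f_good.1 D _ S (good_up _ _)
    have hg2 : Good (cf D (bas x r R) S) := f_good.1 D _ S (good_up _ _)
    have f1 := f_flip D _ a hg1 haD (hcl _)
    have f2 := f_flip D _ a hg2 haD (hcl _)
    rw [← cf_insert D _ S haD] at f1 f2
    have hop : op (cf D (bas x r R) (insert a S)) = insert a (op (cf D (bas x r R) S)) := by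
      rw [cf_insert D _ S haD]
      ext w
      simp only [op, Set.mem_insert_iff, Set.mem_ofPred_eq]
      by_cases hw : w = a
      · subst hw; simp
      · rw [Function.update_of_ne hw]; simp [hw]
    have hmono : ∀ {u v : ℤ × ℤ}, PC (cf D (bas x r R) S) u v →
        PC (cf D (bas x r R) (insert a S)) u v := by
      intro u v h
      unfold PC
      rw [hop]
      exact H166.rtg_mono (fun w hw => Set.mem_insert_of_mem _ hw) h
    have hab : PC (cf D (bas x r R) (insert a S)) (pa a) (pb a) := by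
      unfold PC
      rw [hop]
      exact ReflTransGen.single (step_pab (Set.mem_insert _ _))
    have hins : ∀ {u v : ℤ × ℤ}, Even (u.1 + u.2) → PC (cf D (bas x r R) (insert a S)) u v →
        PC (cf D (bas x r R) S) u v ∨
        (PC (cf D (bas x r R) S) u (pa a) ∧ PC (cf D (bas x r R) S) (pb a) v) ∨
        (PC (cf D (bas x r R) S) u (pb a) ∧ PC (cf D (bas x r R) S) (pa a) v) := by
      intro u v hu h
      unfold PC at h
      rw [hop] at h
      exact rtg_insert hu h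
    have hsym : ∀ {ω : Cfg} {u v : ℤ × ℤ}, PC ω u v → PC ω v u := fun h => rtg_symm h
    have na : (∃ b ∈ D, Cor b (pa a)) := ⟨a, haD, (cor_pa a).1⟩
    have nb : (∃ b ∈ D, Cor b (pb a)) := ⟨a, haD, (cor_pb a).1⟩
    by_cases hc : PC (cf D (bas x r R) S) (pa a) (pb a)
    · -- connected without the link
      have hc2 : PC (cf D (up (Ann x r R) η) S) (pa a) (pb a) :=
        H259.PC_mono (fun v hv => bas_le hD v hv) hc
      have e1 := f1.1 hc2
      have e2 := f2.1 hc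
      have e3 : PC (cf D (bas x r R) (insert a S)) i0 o0 ↔ PC (cf D (bas x r R) S) i0 o0 := by
        refine ⟨fun h => ?_, hmono⟩
        rcases hins hi0 h with h | ⟨h1, h2⟩ | ⟨h1, h2⟩
        · exact h
        · exact h1.trans (hc.trans h2)
        · exact h1.trans ((hsym hc).trans h2)
      simp only [e3]
      omega
    · have e2 := f2.2 hc
      by_cases hc2 : PC (cf D (up (Ann x r R) η) S) (pa a) (pb a)
      · -- connected by the link
        have e1 := f1.1 hc2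
        have h3 := pc_link hr hrR hD hsep hi0 ho0 hi ho (cor_pa a).2 (Or.inl na) (Or.inl nb) hc2
        have h4 : (PC (cf D (bas x r R) S) (pa a) i0 ∧ PC (cf D (bas x r R) S) o0 (pb a)) ∨
            (PC (cf D (bas x r R) S) (pa a) o0 ∧ PC (cf D (bas x r R) S) i0 (pb a)) := by
          rcases h3 with h3 | ⟨-, h3⟩
          · exact absurd h3 hc
          · exact h3
        have h5 : ¬ PC (cf D (bas x r R) S) i0 o0 := by
          intro h
          apply hc
          rcases h4 with ⟨h1, h2⟩ | ⟨h1, h2⟩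
          · exact h1.trans (h.trans h2)
          · exact h1.trans ((hsym h).trans h2)
        have h6 : PC (cf D (bas x r R) (insert a S)) i0 o0 := by
          rcases h4 with ⟨h1, h2⟩ | ⟨h1, h2⟩
          · exact (hmono (hsym h1)).trans (hab.trans (hmono (hsym h2)))
          · exact (hmono h2).trans ((hsym hab).trans (hmono h1))
        rw [if_pos h6, if_neg h5]
        omega
      · -- not connected
        have e1 := f1.2 hc2
        have e3 : PC (cf D (bas x r R) (insert a S)) i0 o0 ↔ PC (cf D (bas x r R) S) i0 o0 := by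
          refine ⟨fun h => ?_, hmono⟩
          rcases hins hi0 h with h | ⟨h1, h2⟩ | ⟨h1, h2⟩
          · exact h
          · exact absurd (pc_of_link hr hrR hD hL hi0 ho0 hi ho
              (Or.inr ⟨hL, Or.inl ⟨hsym h1, hsym h2⟩⟩)) hc2
          · exact absurd (pc_of_link hr hrR hD hL hi0 ho0 hi ho
              (Or.inr ⟨hL, Or.inr ⟨h2, h1⟩⟩)) hc2
        simp only [e3]
        omega

end

/-- A crossing of the annulus by open squares of `D`. -/
def CrD (x : ℤ × ℤ) (r R : ℤ) (D : Finset (ℤ × ℤ)) (ω : Cfg) : Prop :=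
  ∃ s t : ℤ × ℤ, Even (s.1 + s.2) ∧ nm (s - x) ≤ r ∧ R ≤ nm (t - x) ∧
    ReflTransGen (PStep (Op D ω)) s t

theorem CrD.mono {x : ℤ × ℤ} {r R : ℤ} {D D' : Finset (ℤ × ℤ)} (hD : D ⊆ D') {ω ω' : Cfg}
    (h : ∀ v, ω v = true → ω' v = true) (hk : CrD x r R D ω) : CrD x r R D' ω' := by
  obtain ⟨s, t, h1, h2, h3, h4⟩ := hk
  exact ⟨s, t, h1, h2, h3, H166.rtg_mono (F := Op D ω) (F' := Op D' ω')
    (fun v hv => ⟨hD hv.1, h v hv.2⟩) h4⟩

theorem Op_congr {D : Finset (ℤ × ℤ)} {ω ω' : Cfg} (h : ∀ v ∈ D, ω v = ω' v) : Op D ω = Op D ω' := by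
  ext v
  simp only [Op, Set.mem_ofPred_eq]
  exact ⟨fun h1 => ⟨h1.1, (h v h1.1) ▸ h1.2⟩, fun h1 => ⟨h1.1, (h v h1.1).symm ▸ h1.2⟩⟩

theorem CrD.congr {x : ℤ × ℤ} {r R : ℤ} {D : Finset (ℤ × ℤ)} {ω ω' : Cfg}
    (h : ∀ v ∈ D, ω v = ω' v) : CrD x r R D ω ↔ CrD x r R D ω' := by
  unfold CrD
  rw [Op_congr h]

theorem ind_congr {A : Cfg → Prop} {ω ω' : Cfg} (h : A ω ↔ A ω') :
    ({ω | A ω}.indicator (1 : Cfg → ℝ)) ω = ({ω | A ω}.indicator (1 : Cfg → ℝ)) ω' := by
  by_cases h1 : A ω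
  · rw [Set.indicator_of_mem (show ω ∈ {ω | A ω} from h1),
      Set.indicator_of_mem (show ω' ∈ {ω | A ω} from h.1 h1)]
    rfl
  · rw [Set.indicator_of_notMem (show ω ∉ {ω | A ω} from h1),
      Set.indicator_of_notMem (show ω' ∉ {ω | A ω} from fun h2 => h1 (h.2 h2))]

theorem loc_CrD {x : ℤ × ℤ} {r R : ℤ} {D : Finset (ℤ × ℤ)} :
    Loc D ({ω | CrD x r R D ω}.indicator 1) := fun ω ω' h => ind_congr (CrD.congr h)

theorem inc_CrD {x : ℤ × ℤ} {r R : ℤ} {D : Finset (ℤ × ℤ)} :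
    IncF ({ω | CrD x r R D ω}.indicator 1) :=
  IncS.incF (A := {ω | CrD x r R D ω}) fun _ _ h hk => CrD.mono (Finset.Subset.refl _) h hk

/-- **Crossings of a separated domain.** -/
theorem pr_sep {Q α C : ℝ} (hQ : 1 ≤ Q) (hA : ArmDec Q α C) {x : ℤ × ℤ} {r R : ℤ} (hr : 1 ≤ r)
    (hrR : r ≤ R) {D : Finset (ℤ × ℤ)} (hD : D ⊆ Ann x r R) {η : Cfg} (hη : Good η)
    (hsep : Sep (Ann x r R : Finset (ℤ × ℤ)) D η) :
    Pr Q D η {ω | CrD x r R D ω} ≤ Q ^ 2 * (C * ((r : ℝ) / R) ^ α) := by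
  classical
  have hQ0 : 0 < Q := by linarith
  have hQ2 : 1 ≤ Q ^ 2 := one_le_pow₀ hQ
  -- the base
  have h3 : Pr Q D (bas x r R) {ω | CrD x r R D ω} ≤ C * ((r : ℝ) / R) ^ α := by
    have a1 : Pr Q D (bas x r R) {ω | CrD x r R D ω} ≤
        Pr Q (Ann x r R) eta1 {ω | CrD x r R D ω} := by
      have h3 := f_markov Q D (Ann x r R) eta1 ({ω | CrD x r R D ω}.indicator 1) hQ0 hD f_good.2.2
      unfold Pr
      rw [h3, ← Ex_const (Q := Q) (D := Ann x r R) (η := eta1) hQ0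
        (Ex Q D (bas x r R) ({ω | CrD x r R D ω}.indicator 1))]
      refine Ex_mono hQ0 fun S _ => ?_
      refine f_comp Q D _ _ _ hQ (good_up _ _) (f_good.1 _ _ _ f_good.2.2) (fun v hv => ?_) inc_CrD
      by_cases hvB : v ∈ Ann x r R
      · rw [bas, up_mem hvB] at hv
        exact Bool.noConfusion hv
      · rw [cf_out hvB]; rfl
    have a2 : Pr Q (Ann x r R) eta1 {ω | CrD x r R D ω} ≤
        Pr Q (Ann x r R) eta1 {ω | ArmPx x r R ω} := by
      refine Pr_mono hQ0 ?_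
      rintro ω ⟨s, t, b1, b2, b3, b4⟩
      show ArmPx x r R ω
      rw [armPx_iff hrR]
      exact ⟨s, t, b1, b2, b3, H166.rtg_mono (F := Op D ω) (F' := op ω) (fun v hv => hv.2) b4⟩
    have a3 := hA x r R (Ann x r R) eta1 (fun _ => 1) hr hrR f_good.2.2 (Finset.Subset.refl _)
      (fun _ => zero_le_one) (fun _ _ _ => rfl)
    rw [Ex_const hQ0, mul_one] at a3
    simp only [one_mul] at a3
    exact a1.trans (a2.trans a3)
  have h0 : 0 ≤ Pr Q D (bas x r R) {ω | CrD x r R D ω} := Pr_nonneg hQ0 _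
  -- open outside of the annulus
  have h1 : Pr Q D η {ω | CrD x r R D ω} ≤ Pr Q D (up (Ann x r R) η) {ω | CrD x r R D ω} := by
    refine f_comp Q D _ _ _ hQ hη (good_up _ _) (fun v hv => ?_) inc_CrD
    by_cases hvB : v ∈ Ann x r R
    · rw [up_mem hvB]; exact hv
    · rw [up_notMem hvB]
  refine h1.trans (le_trans ?_ (mul_le_mul_of_nonneg_left h3 (by positivity)))
  obtain ⟨i0, hi0, hi⟩ : ∃ i0 : ℤ × ℤ, Even (i0.1 + i0.2) ∧ nm (i0 - x) ≤ r := by
    refine ⟨(x.1 + (x.1 + x.2) % 2, x.2), ?_, ?_⟩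
    · rw [Int.even_iff]; simp only; omega
    · rw [nm_abs]; simp only [Prod.fst_sub, Prod.snd_sub]; omega
  obtain ⟨o0, ho0, ho⟩ : ∃ o0 : ℤ × ℤ, Even (o0.1 + o0.2) ∧ R ≤ nm (o0 - x) := by
    refine ⟨(x.1 + R + (x.1 + R + x.2) % 2, x.2), ?_, ?_⟩
    · rw [Int.even_iff]; simp only; omega
    · rw [le_nm_iff]; simp only [Prod.fst_sub, Prod.snd_sub]; omega
  by_cases hL : Lk x r R D η
  · have hld := LD_link hr hrR hD hsep hL hi0 ho0 hi ho
    obtain ⟨k, hk⟩ : ∃ k : ℤ, k = (LD D (cf D (up (Ann x r R) η) ∅) : ℤ) -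
        LD D (cf D (bas x r R) ∅) - 2 * (if PC (cf D (bas x r R) ∅) i0 o0 then 1 else 0) :=
      ⟨_, rfl⟩
    rw [← hk] at hld
    have hw : ∀ S ⊆ D, Q ^ LD D (cf D (up (Ann x r R) η) S) =
        Q ^ k * Q ^ LD D (cf D (bas x r R) S) *
          (if PC (cf D (bas x r R) S) i0 o0 then Q ^ 2 else 1) := by
      intro S hS
      have h := hld S hS
      have e1 : (Q ^ LD D (cf D (up (Ann x r R) η) S) : ℝ) =
          Q ^ (LD D (cf D (up (Ann x r R) η) S) : ℤ) := (zpow_natCast _ _).symm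
      have e2 : (Q ^ LD D (cf D (bas x r R) S) : ℝ) = Q ^ (LD D (cf D (bas x r R) S) : ℤ) :=
        (zpow_natCast _ _).symm
      rw [e1, e2]
      split_ifs at h ⊢ with hp
      · have e3 : (LD D (cf D (up (Ann x r R) η) S) : ℤ) = k + LD D (cf D (bas x r R) S) + 2 := by
          omega
        rw [e3, zpow_add₀ hQ0.ne', zpow_add₀ hQ0.ne']
        norm_cast
      · have e3 : (LD D (cf D (up (Ann x r R) η) S) : ℤ) = k + LD D (cf D (bas x r R) S) := by
          omega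
        rw [e3, zpow_add₀ hQ0.ne', mul_one]
    have hkp : 0 < Q ^ k := zpow_pos hQ0 k
    refine ex_ratio hQ0 hkp (by positivity) (fun S hS => ?_) (fun S hS => ?_)
      (fun ω => ind_nonneg _ _) (fun S hS => ?_)
    · rw [hw S hS]
      have h5 : 0 ≤ Q ^ k * Q ^ LD D (cf D (bas x r R) S) := by positivity
      split_ifs
      · nlinarith
      · linarith
    · rw [hw S hS]
      have h5 : 0 ≤ Q ^ k * Q ^ LD D (cf D (bas x r R) S) := by positivity
      split_ifs
      · linarith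
      · nlinarith
    · exact ind_congr (CrD.congr fun v hv => by rw [cf_mem hv, cf_mem hv])
  · have h4 : Pr Q D (up (Ann x r R) η) {ω | CrD x r R D ω} ≤
        Pr Q D (bas x r R) {ω | CrD x r R D ω} := by
      refine f_comp2 Q D _ _ _ hQ (good_up _ _) (good_up _ _) (fun S _ a ha _ h => ?_) inc_CrD
        loc_CrD
      have h5 := pc_link hr hrR hD hsep hi0 ho0 hi ho (cor_pa a).2 (Or.inl ⟨a, ha, (cor_pa a).1⟩)
        (Or.inl ⟨a, ha, (cor_pb a).1⟩) h
      rcases h5 with h5 | ⟨h5, -⟩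
      · exact h5
      · exact absurd h5 hL
    refine h4.trans ?_
    nlinarith

end Vale.Agent.P167.QN
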