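import Vale.Agent.P167.QE.Inputs
import Vale.Agent.P167.Fjord.Tight
import Vale.Agent.P167.Fjord.Bridge

/-!
# P167, general `q`, block Q-NF: the number of pieces of the interface is tight

from the tightness of the crossing numbers, for any law of the configurations.
-/

set_option autoImplicit false

open MeasureTheory ProbabilityTheory Filter Topology Set Metric
open scoped NNReal ENNReal

namespace Vale.Agent.P167.QN

open Vale.Agent.P153.R2
open Vale.Agent.P153.R2.C1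
open Vale.Agent.P167.SLE (Cf bq)
open Vale.Agent.P167.E6 Vale.Agent.P167.E2
open Vale.Agent.P167.H161 (SCross)
open Vale.Agent.P167.Fjord (Pp pc pcA excursions exists_bound pl_nat dist_mid_Pp)

/-- Crossings by the midpoints give crossings by the curve. -/
theorem cross_of_scross {n : ℕ} {p : ZMod n → ℤ × ℤ} {k : ℕ} {A : Finset (Sym2 (ℤ × ℤ))} {δ : ℝ}
    (hδ : 0 ≤ δ) {z : ℂ} {r : ℝ} (hr : 8 * δ ≤ r) {m : ℕ}
    (h : SCross (fun j => mid δ (run p k A j)) (len p k A) z (r / 8) (7 * r / 8) m) :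
    Cross (Xc p k δ A) z (r / 4) (3 * (r / 4)) m := by
  obtain ⟨t, ht, h1⟩ := h
  have hnu : (0 : ℝ) < nu p k A := by unfold nu; positivity
  have hnu' : (nu p k A : ℝ) = len p k A + 2 := by unfold nu; push_cast; rfl
  have hmem : ∀ i, ((min (t i) (len p k A) : ℕ) + 1 : ℝ) / nu p k A ∈ Icc (0 : ℝ) 1 := by
    intro i
    refine ⟨by positivity, ?_⟩
    rw [div_le_one hnu, hnu']
    have : ((min (t i) (len p k A) : ℕ) : ℝ) ≤ len p k A := by exact_mod_cast min_le_right _ _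
    linarith
  have hval : ∀ i, Xc p k δ A ⟨_, hmem i⟩ = Pp δ (run p k A (min (t i) (len p k A))) := by
    intro i
    rw [Xc_apply]
    have e : ((min (t i) (len p k A) : ℕ) + 1 : ℝ) / nu p k A * nu p k A =
        ((min (t i) (len p k A) : ℕ) : ℝ) + 1 := div_mul_cancel₀ _ hnu.ne'
    simp only [e]
    exact pl_nat (min_le_right _ _)
  refine ⟨fun i => ⟨_, hmem i⟩, ?_, ?_⟩
  · intro i j hij
    rw [← Subtype.coe_le_coe]
    have h2 : ((min (t i) (len p k A) : ℕ) : ℝ) ≤ ((min (t j) (len p k A) : ℕ) : ℝ) := by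
      exact_mod_cast min_le_min_right _ (ht hij)
    simp only
    gcongr
  · intro i hi
    obtain ⟨h2, h3, h4⟩ := h1 i hi
    have h5 : t (2 * i) ≤ t (2 * i + 1) := ht (Nat.le_succ _)
    rw [hval, hval, min_eq_left (by omega), min_eq_left h4.le]
    have d1 := dist_mid_Pp hδ (run p k A (t (2 * i)))
    have d2 := dist_mid_Pp hδ (run p k A (t (2 * i + 1)))
    have t1 := dist_triangle (Pp δ (run p k A (t (2 * i)))) (mid δ (run p k A (t (2 * i)))) z
    have t2 := dist_triangle (mid δ (run p k A (t (2 * i + 1))))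
      (Pp δ (run p k A (t (2 * i + 1)))) z
    rw [dist_comm (Pp δ (run p k A (t (2 * i)))) (mid δ (run p k A (t (2 * i))))] at t1
    simp only at h2 h3
    exact ⟨by linarith, by linarith⟩

/-- **The pieces are tight.** -/
theorem pieces_of_cross {wt : QE.Wt} (hX : QE.I_crossW wt) (Φ : (ℝ × ℝ) ≃ₜ (ℝ × ℝ)) (δ : ℕ → ℝ)
    (N k : ℕ → ℕ) (p : ∀ n, ZMod (N n) → ℤ × ℤ) (S : ℕ → Finset (ℤ × ℤ)) (h : Approx Φ δ N k p S)
    {r : ℝ} (hr : 0 < r) {q : ℝ≥0∞} (hq : 0 < q) : ∃ K : ℕ, ∀ᶠ i in Filter.atTop,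
      QE.lwt wt (p i) (k i) (S i) {ω | K < Fjord.pcA (p i) (k i) (δ i) r ω.1
        (len (p i) (k i) ω.1 - 1)} ≤ q := by
  obtain ⟨B, hB0, hB⟩ := exists_bound h
  obtain ⟨Zs, -, hZf, hZc⟩ := (isCompact_closedBall (0 : ℂ) B).finite_cover_balls
    (show 0 < r / 8 by positivity)
  set Z : Finset ℂ := hZf.toFinset with hZ
  have hZ1 : ∀ u : ℂ, ‖u‖ ≤ B → ∃ z ∈ Z, dist u z ≤ r / 8 := by
    intro u hu
    have := hZc (mem_closedBall_zero_iff.2 hu)
    simp only [mem_iUnion, Metric.mem_ball] at this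
    obtain ⟨z, hz, hz'⟩ := this
    exact ⟨z, hZf.mem_toFinset.2 hz, hz'.le⟩
  have hZpos : 0 < Z.card := by
    obtain ⟨z, hz, -⟩ := hZ1 0 (by rw [norm_zero]; exact hB0.le)
    exact Finset.card_pos.2 ⟨z, hz⟩
  have hc0 : (Z.card : ℝ≥0∞) ≠ 0 := by exact_mod_cast hZpos.ne'
  have hct : (Z.card : ℝ≥0∞) ≠ ⊤ := ENNReal.natCast_ne_top _
  choose m hm using fun z : ℂ => hX Φ δ N k p S h z (r / 4) (by positivity) (q / Z.card)
    (ENNReal.div_pos hq.ne' hct)
  refine ⟨Z.card * (∑ z ∈ Z, m z), ?_⟩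
  have hall : ∀ᶠ i in atTop, ∀ z ∈ Z, QE.lwt wt (p i) (k i) (S i)
      {a : Cf (S i) | Cross (Xc (p i) (k i) (δ i) a.1) z (r / 4) (3 * (r / 4)) (m z)} ≤ q / Z.card :=
    (Filter.eventually_all_finset Z).2 fun z _ => hm z
  filter_upwards [hall, hB, h.2.1.eventually (gt_mem_nhds (show (0 : ℝ) < r / 8 by positivity))]
    with i hi1 hi2 hi3
  obtain ⟨hδ, hk0, hkN, hp, hS⟩ := h.1 i
  have key : {ω : Cf (S i) | Z.card * (∑ z ∈ Z, m z) < Fjord.pcA (p i) (k i) (δ i) r ω.1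
      (len (p i) (k i) ω.1 - 1)} ⊆ ⋃ z ∈ Z, {a : Cf (S i) | Cross (Xc (p i) (k i) (δ i) a.1) z
        (r / 4) (3 * (r / 4)) (m z)} := by
    rintro ⟨A, hA'⟩ hc
    have hA : A ⊆ edges (S i) := Finset.mem_powerset.1 hA'
    obtain ⟨z, hz, t, ht, hj⟩ := excursions (Z := Z) (fun j _ => hZ1 _ (hi2 A hA j)) hc
    have hpos := len_pos hp hS hkN hA
    refine mem_iUnion₂.2 ⟨z, hz, ?_⟩
    show Cross (Xc (p i) (k i) (δ i) A) z (r / 4) (3 * (r / 4)) (m z)
    refine cross_of_scross hδ.le (by linarith) ⟨t, ht, fun j hj' => ?_⟩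
    have h8 : m z ≤ ∑ z ∈ Z, m z := Finset.single_le_sum (f := m) (fun _ _ => Nat.zero_le _) hz
    obtain ⟨g1, g2, g3⟩ := hj j (by omega)
    have g4 : t (2 * j + 1) ≤ len (p i) (k i) A - 1 := g3
    exact ⟨g1, g2, by omega⟩
  refine (measure_mono key).trans ((measure_biUnion_finset_le _ _).trans ?_)
  refine (Finset.sum_le_card_nsmul _ _ _ fun z hz => hi1 z hz).trans ?_
  rw [nsmul_eq_mul, ENNReal.mul_div_cancel hc0 hct]

end Vale.Agent.P167.QN
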