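import Vale.Agent.P167.QN.BridgeQ
import Vale.Agent.P167.QN.PiecesW
import Vale.Agent.P167.Fjord.Gate
import Vale.Agent.P167.Fjord.Main
import Vale.Agent.P167.QE.Inputs
import Vale.Agent.P167.QE.Main
import Vale.Agent.P167.FKA.All

/-!
# P167, general `q`, block Q-NF: no fjords, `I_nfW (wq q)`, from the crossing input and the two
deterministic statements
-/

set_option autoImplicit false
set_option linter.unusedVariables false

open MeasureTheory Filter Topology Set Metric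
open scoped ENNReal

namespace Vale.Agent.P167.QN

open Vale.Agent.P167.FK Vale.Agent.P167.FKA
open Vale.Agent.P167.E6 Vale.Agent.P167.E2 Vale.Agent.P167.Fjord
open Vale.Agent.P167.SLE (Cf)
open Vale.Agent.P167.S6 (FJR ctrl_Om isCompact_frontier_Om)
open Vale.Agent.P167.H327 (frontier_Om jcurve_QF QF aM_mem eventually_two)
open Vale.Agent.P167.QE (Wt WPos lwt lawW meanW wq wq_pos I_crossW I_nfW)

theorem lwt_le {wt : Wt} (hw : WPos wt) {n : ℕ} {p : ZMod n → ℤ × ℤ} {k : ℕ}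
    {S : Finset (ℤ × ℤ)} {Q : Finset (Sym2 (ℤ × ℤ)) → Prop} [DecidablePred Q] {x : ℝ}
    (h : meanW S (wt n p k S) (fun A => if Q A then 1 else 0) ≤ x) :
    lwt wt p k S {ω | Q ω.1} ≤ ENNReal.ofReal x := by
  have := QE.lawW_prob S (w := wt n p k S) fun A => hw n p k S A
  rw [QE.meanW_eq S (fun A => hw n p k S A)] at h
  have e1 : ∫ A : Cf S, (if Q A.1 then (1 : ℝ) else 0) ∂(lawW S (wt n p k S)) =
      (lawW S (wt n p k S)).real {ω : Cf S | Q ω.1} := by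
    rw [← integral_indicator_one (MeasurableSet.of_discrete)]
    refine integral_congr_ae (Eventually.of_forall fun A => ?_)
    by_cases hA : Q A.1
    · rw [Set.indicator_of_mem (show A ∈ {ω : Cf S | Q ω.1} from hA)]
      simp [hA]
    · rw [Set.indicator_of_notMem (show A ∉ {ω : Cf S | Q ω.1} from hA)]
      simp [hA]
  rw [e1] at h
  rw [← ENNReal.ofReal_toReal (measure_ne_top (lwt wt p k S) {ω | Q ω.1})]
  exact ENNReal.ofReal_le_ofReal h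

open Classical in
/-- The estimate for one domain. -/
theorem nf_levelQ (hL : S_leftQ) (hR : S_rightQ) {n : ℕ} {p : ZMod n → ℤ × ℤ} {k : ℕ}
    {S : Finset (ℤ × ℤ)} (μ : Measure (Cf S)) {δ : ℝ} (hδ0 : 0 < δ) (hp : IsPolygon p)
    (hS : Encloses p S)
    (hk0 : 0 < k) (hk1 : k + 1 < n) {e r₁ ρ R η ε : ℝ} (hη : 0 < η) (hηR : η ≤ R)
    (hεη : 64 * ε ≤ η) (hδε : δ ≤ ε)
    (hg : ∀ A ⊆ edges S, FJR (Om δ S) (bM p k δ) (Xc p k δ A) 1 ρ e r₁ → Gated δ p k S A R η ε)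
    {r' R' : ℤ} (hr' : 6 * ε / δ + 3 ≤ r') (hR' : (R' : ℝ) ≤ 3 / 2 * R / (2 * δ) - 3 / 2)
    (hrR : r' < R') {K : ℕ} {x y : ℝ≥0∞}
    (hx : μ {ω | K < pcA p k δ (η / 16) ω.1 (len p k ω.1 - 1)} ≤ x)
    (hb : ∀ Q : Finset (Sym2 (ℤ × ℤ)) → ℕ → Prop,
      (∀ A A' : Finset (Sym2 (ℤ × ℤ)), ∀ j, (∀ l ≤ j, run p k A l = run p k A' l) →
        Q A j → Q A' j) →
      μ {ω | ∃ τ, Q ω.1 τ ∧ (∀ j < τ, ¬ Q ω.1 j) ∧ FArmQ p k S ω.1 τ r' R'} ≤ y) :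
    μ {ω | FJR (Om δ S) (bM p k δ) (Xc p k δ ω.1) 1 ρ e r₁} ≤
      x + ((K + 1 : ℕ) : ℝ≥0∞) * (((K + 2 : ℕ) : ℝ≥0∞) * y) := by
  obtain ⟨B1, hB1⟩ : ∃ B1 : ℕ → ℕ → Set (Cf S), B1 = fun j l =>
      {ω : Cf S | ∃ τ, QL p k S δ (η / 16) ε j l ω.1 τ ∧
        (∀ b < τ, ¬ QL p k S δ (η / 16) ε j l ω.1 b) ∧ FArmQ p k S ω.1 τ r' R'} := ⟨_, rfl⟩
  obtain ⟨B2, hB2⟩ : ∃ B2 : ℕ → Set (Cf S), B2 = fun l =>
      {ω : Cf S | ∃ τ, QW p k S δ (η / 16) ε l ω.1 τ ∧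
        (∀ b < τ, ¬ QW p k S δ (η / 16) ε l ω.1 b) ∧ FArmQ p k S ω.1 τ r' R'} := ⟨_, rfl⟩
  have hb1 : ∀ j l, μ (B1 j l) ≤ y := by
    intro j l
    rw [hB1]
    exact hb (QL p k S δ (η / 16) ε j l) fun A A' b h hQ => hQ.congr h
  have hb2 : ∀ l, μ (B2 l) ≤ y := by
    intro l
    rw [hB2]
    exact hb (QW p k S δ (η / 16) ε l) fun A A' b h hQ => hQ.congr h
  have hfr : frontier (Om δ S) = range (QF p δ) := frontier_Om hδ0 hp hS
  have hpre : IsPreconnected (frontier (Om δ S)) := by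
    rw [hfr]
    exact isPreconnected_range (jcurve_QF hδ0 hp hS).cont
  have hsub : {ω : Cf S | FJR (Om δ S) (bM p k δ) (Xc p k δ ω.1) 1 ρ e r₁} ⊆
      {ω | K < pcA p k δ (η / 16) ω.1 (len p k ω.1 - 1)} ∪
      ⋃ l ∈ Finset.range (K + 1), ((⋃ j ∈ Finset.range (K + 1), B1 j l) ∪ B2 l) := by
    intro ω hω
    by_cases hpc : K < pcA p k δ (η / 16) ω.1 (len p k ω.1 - 1)
    · exact Or.inl hpc
    · right
      push Not at hpc
      have hAω : ω.1 ⊆ edges S := Finset.mem_powerset.1 ω.2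
      have hG := hg ω.1 hAω hω
      obtain ⟨l, hl, h5⟩ := bridgeQ hL hR hδ0 hp hS hk0 hk1 hAω
        (fun c hc hc' => cpt_frontierG hδ0 hc hc') hpre (isCompact_frontier_Om hδ0)
        (aM_mem hδ0 hp hS) hG hηR (show 0 < η / 16 by positivity) (by linarith) (by linarith)
        hδε hr' hR' hrR
      simp only [mem_iUnion, mem_union, Finset.mem_range]
      refine ⟨l, by omega, ?_⟩
      rcases h5 with ⟨j, hj, h5⟩ | h5
      · exact Or.inl ⟨j, by omega, by rw [hB1]; exact h5⟩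
      · exact Or.inr (by rw [hB2]; exact h5)
  have hterm : ∀ l, μ ((⋃ j ∈ Finset.range (K + 1), B1 j l) ∪ B2 l) ≤
      ((K + 2 : ℕ) : ℝ≥0∞) * y := by
    intro l
    refine (measure_union_le _ _).trans ?_
    have h5 : μ (⋃ j ∈ Finset.range (K + 1), B1 j l) ≤ ((K + 1 : ℕ) : ℝ≥0∞) * y := by
      refine (measure_biUnion_finset_le _ _).trans ?_
      refine (Finset.sum_le_sum fun j _ => hb1 j l).trans ?_
      rw [Finset.sum_const, Finset.card_range, nsmul_eq_mul]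
    refine (add_le_add h5 (hb2 l)).trans (le_of_eq ?_)
    push_cast
    ring
  refine (measure_mono hsub).trans ((measure_union_le _ _).trans (add_le_add hx ?_))
  refine (measure_biUnion_finset_le _ _).trans ?_
  refine (Finset.sum_le_sum fun l _ => hterm l).trans ?_
  rw [Finset.sum_const, Finset.card_range, nsmul_eq_mul]

/-- The integer radii. -/
theorem radiiQ {δ ε R : ℝ} (hδ0 : 0 < δ) (hδε : δ < ε) (hεR : 64 * ε ≤ R) :
    6 * ε / δ + 3 ≤ ((⌈6 * ε / δ⌉ + 3 : ℤ) : ℝ) ∧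
    ((⌊R / (2 * δ)⌋ : ℤ) : ℝ) ≤ 3 / 2 * R / (2 * δ) - 3 / 2 ∧
    ⌈6 * ε / δ⌉ + 3 < ⌊R / (2 * δ)⌋ := by
  have hε : 0 < ε := hδ0.trans hδε
  have hR : 0 < R := by linarith
  have b1 := Int.le_ceil (6 * ε / δ)
  have b2 := Int.ceil_lt_add_one (6 * ε / δ)
  have b3 := Int.floor_le (R / (2 * δ))
  have b4 := Int.lt_floor_add_one (R / (2 * δ))
  have b5 : (1 : ℝ) ≤ ε / δ := (one_le_div hδ0).2 hδε.le
  have b6 : (64 : ℝ) ≤ R / δ := by rw [le_div_iff₀ hδ0]; linarith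
  have b7 : 64 * (ε / δ) ≤ R / δ := by
    rw [← mul_div_assoc]
    exact div_le_div_of_nonneg_right hεR hδ0.le
  have e1 : 6 * ε / δ = 6 * (ε / δ) := by ring
  have e2 : R / (2 * δ) = R / δ / 2 := by field_simp
  have e3 : 3 / 2 * R / (2 * δ) = 3 / 4 * (R / δ) := by field_simp; norm_num
  refine ⟨by push_cast; linarith, by rw [e3]; linarith, ?_⟩
  have h1 : ((⌈6 * ε / δ⌉ + 3 : ℤ) : ℝ) < ((⌊R / (2 * δ)⌋ : ℤ) : ℝ) := by
    push_cast
    linarith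
  exact_mod_cast h1

/-- **No fjords** for general `q`. -/
theorem nfQ_of {q₀ : ℝ} (hq₀ : 1 ≤ q₀) (hRSW : RSW (√q₀)) (hR : S_rightQ)
    (hX : I_crossW (wq q₀)) : I_nfW (wq q₀) := by
  classical
  intro Φ δ N k p S hA e he r₁ hr₁ q hq
  obtain ⟨q', hq', hqq⟩ := ENNReal.lt_iff_exists_nnreal_btwn.1 hq
  have hq0 : (0 : ℝ) < q' := by exact_mod_cast hq'
  obtain ⟨R, hRpos, hRe, hRr⟩ : ∃ R : ℝ, 0 < R ∧ 16 * R ≤ e ∧ 16 * R ≤ r₁ :=
    ⟨min e r₁ / 16, by positivity, by linarith [min_le_left e r₁],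
      by linarith [min_le_right e r₁]⟩
  obtain ⟨η, hη, hηR, hgate⟩ := gate1 Φ δ N k p S hA hRpos hRe hRr
  obtain ⟨K, hK⟩ := pieces_of_cross hX Φ δ N k p S hA (r := η / 16) (by positivity)
    (q := ENNReal.ofReal (q' / 2)) (ENNReal.ofReal_pos.2 (by positivity))
  have hQ1 : 1 ≤ √q₀ := Real.one_le_sqrt.2 hq₀
  obtain ⟨α, C₀, hα, hC₀, hAD, -⟩ := arm_fk hQ1 hRSW
  set C : ℝ := 2 * q₀ * C₀ with hC
  have hCpos : 0 < C := by rw [hC]; positivity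
  obtain ⟨ε, hε, hεη, hεq⟩ := exists_eps (C := C) hα (R := R) hη
    (show (0 : ℝ) < q' / 2 by positivity) (((K + 1 : ℕ) : ℝ) * ((K + 2 : ℕ) : ℝ))
  obtain ⟨ρ, hρ, hev⟩ := hgate ε hε
  refine ⟨ρ, hρ, ?_⟩
  filter_upwards [hev, hK, hA.2.1.eventually (gt_mem_nhds hε), eventually_two hA]
    with i h1 h2 h3 hk1
  obtain ⟨hδ0, hk0, hkN, hp, hS⟩ := hA.1 i
  obtain ⟨-, -, c3, c4, c5, c6⟩ := radii (R := R) hδ0 h3 (by linarith)
  obtain ⟨c1, c2, c7⟩ := radiiQ (R := R) hδ0 h3 (by linarith)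
  have hy : ∀ Q : Finset (Sym2 (ℤ × ℤ)) → ℕ → Prop,
      (∀ A A' : Finset (Sym2 (ℤ × ℤ)), ∀ j, (∀ l ≤ j, run (p i) (k i) A l = run (p i) (k i) A' l) →
        Q A j → Q A' j) →
      lwt (wq q₀) (p i) (k i) (S i) {ω | ∃ τ, Q ω.1 τ ∧ (∀ j < τ, ¬ Q ω.1 j) ∧
        FArmQ (p i) (k i) (S i) ω.1 τ (⌈6 * ε / δ i⌉ + 3) ⌊R / (2 * δ i)⌋} ≤
      ENNReal.ofReal (C * (40 * ε / R) ^ α) := by
    intro Q hQ
    have h5 := farmQ (q := q₀) hq₀ hAD (k := k i) hp hS (Qp := Q)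
        (fun A _ A' _ j hj => hQ A A' j hj) c3 c4
    have hw : WPos (wq q₀) := wq_pos (by linarith)
    have h6 : meanW (S i) (wq q₀ (N i) (p i) (k i) (S i)) (fun A => if ∃ τ, Q A τ ∧
        (∀ j < τ, ¬ Q A j) ∧ FArmQ (p i) (k i) (S i) A τ (⌈6 * ε / δ i⌉ + 3) ⌊R / (2 * δ i)⌋
        then 1 else 0) ≤ C * (((⌈6 * ε / δ i⌉ + 3 : ℤ) : ℝ) / (⌊R / (2 * δ i)⌋ : ℤ)) ^ α := by
      refine le_trans (le_of_eq ?_) h5
      rfl
    exact (lwt_le hw h6).trans (ENNReal.ofReal_le_ofReal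
      (mul_le_mul_of_nonneg_left (Real.rpow_le_rpow c5 c6 hα.le) hCpos.le))
  have hlev := nf_levelQ s_leftQ hR (lwt (wq q₀) (p i) (k i) (S i)) hδ0 hp hS hk0 hk1 hη hηR hεη h3.le
    h1 c1 c2 c7 h2 hy
  refine hlev.trans ?_
  have hy0 : 0 ≤ C * (40 * ε / R) ^ α := by positivity
  have e6 : ∀ z : ℝ, 0 ≤ z → ((K + 1 : ℕ) : ℝ≥0∞) * (((K + 2 : ℕ) : ℝ≥0∞) *
      ENNReal.ofReal z) = ENNReal.ofReal (((K + 1 : ℕ) : ℝ) * ((K + 2 : ℕ) : ℝ) * z) := by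
    intro z hz
    rw [ENNReal.ofReal_mul (by positivity), ENNReal.ofReal_mul (by positivity),
      ENNReal.ofReal_natCast, ENNReal.ofReal_natCast, mul_assoc]
  have e7 : ENNReal.ofReal (q' / 2) + ENNReal.ofReal (q' / 2) ≤ q := by
    rw [← ENNReal.ofReal_add (by positivity) (by positivity), add_halves,
      ENNReal.ofReal_coe_nnreal]
    exact hqq.le
  refine le_trans (add_le_add le_rfl ?_) e7
  rw [e6 _ hy0]
  exact ENNReal.ofReal_le_ofReal hεq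

end Vale.Agent.P167.QN
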