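import Vale.Agent.P167.Fjord.Tight
import Vale.Agent.P167.QE.Main

/-!
# P167, general `q`, block Q-NF: the number of pieces of the interface is tight

`S_piecesW w` from the tightness of the numbers of strong crossings of fixed annuli (`SCrossW w`).
-/

set_option autoImplicit false

namespace Vale.Agent.P167.QN

open Set Filter Topology
open Vale.Agent.P167 Vale.Agent.P167.E6 Vale.Agent.P167.E2 Vale.Agent.P167.H161 Vale.Agent.P167.Fjord
open Vale.Agent.P167.QE (Wt meanW wq)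

/-- The numbers of the crossings of fixed annuli by the interface are tight (the analogue of
`H161.scross_mean`). -/
def SCrossW (wt : Wt) : Prop := ∀ (Φ : (ℝ × ℝ) ≃ₜ (ℝ × ℝ)) (δ : ℕ → ℝ) (N k : ℕ → ℕ)
  (p : ∀ n, ZMod (N n) → ℤ × ℤ) (S : ℕ → Finset (ℤ × ℤ)), Approx Φ δ N k p S →
  ∀ (y : ℂ) (r r' : ℝ), 0 < r → r < r' → ∀ e : ℝ, 0 < e → ∃ m : ℕ, ∀ᶠ n in atTop,
    meanW (S n) (wt (N n) (p n) (k n) (S n)) (fun A =>
      haveI := Classical.propDecidable
      if SCross (fun j => mid (δ n) (run (p n) (k n) A j)) (len (p n) (k n) A) y r r' m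
      then 1 else 0) ≤ e

/-- The number of the pieces of the interface is tight. -/
def S_piecesW (wt : Wt) : Prop :=
  ∀ (Φ : (ℝ × ℝ) ≃ₜ (ℝ × ℝ)) (δ : ℕ → ℝ) (N k : ℕ → ℕ)
    (p : ∀ n, ZMod (N n) → ℤ × ℤ) (S : ℕ → Finset (ℤ × ℤ)), Approx Φ δ N k p S →
    ∀ r > 0, ∀ q > 0, ∃ K : ℕ, ∀ᶠ i in atTop,
      meanW (S i) (wt (N i) (p i) (k i) (S i)) (fun A =>
        if K < pc (fun j => mid (δ i) (run (p i) (k i) A j)) r
        (len (p i) (k i) A - 1) then 1 else 0) ≤ q

theorem meanW_mono {S : Finset (ℤ × ℤ)} {w : Finset (Sym2 (ℤ × ℤ)) → ℝ} (hw : ∀ A, 0 < w A)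
    {F G : Finset (Sym2 (ℤ × ℤ)) → ℝ} (h : ∀ A ⊆ edges S, F A ≤ G A) :
    meanW S w F ≤ meanW S w G := by
  unfold meanW
  refine div_le_div_of_nonneg_right (Finset.sum_le_sum fun A hA => ?_)
    (Finset.sum_nonneg fun A _ => (hw A).le)
  exact mul_le_mul_of_nonneg_left (h A (Finset.mem_powerset.1 hA)) (hw A).le

theorem meanW_sum {ι : Type*} {S : Finset (ℤ × ℤ)} {w : Finset (Sym2 (ℤ × ℤ)) → ℝ} (I : Finset ι)
    (F : ι → Finset (Sym2 (ℤ × ℤ)) → ℝ) :
    meanW S w (fun A => ∑ i ∈ I, F i A) = ∑ i ∈ I, meanW S w (F i) := by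
  unfold meanW
  rw [← Finset.sum_div]
  congr 1
  rw [Finset.sum_comm]
  exact Finset.sum_congr rfl fun A _ => by rw [Finset.mul_sum]

open Classical in
/-- **The number of pieces is tight.** -/
theorem s_piecesW {wt : Wt} (hw : Vale.Agent.P167.QE.WPos wt) (hc' : SCrossW wt) :
    S_piecesW wt := by
  intro Φ δ N k p S h r hr q hq
  obtain ⟨B, hB0, hB⟩ := exists_bound h
  obtain ⟨Zs, -, hZf, hZc⟩ := (isCompact_closedBall (0 : ℂ) B).finite_cover_balls
    (show 0 < r / 8 by positivity)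
  set Z : Finset ℂ := hZf.toFinset with hZ
  have hZ1 : ∀ u : ℂ, ‖u‖ ≤ B → ∃ z ∈ Z, dist u z ≤ r / 8 := by
    intro u hu
    have := hZc (mem_closedBall_zero_iff.2 hu)
    simp only [mem_iUnion, Metric.mem_ball] at this
    obtain ⟨z, hz, hz'⟩ := this
    exact ⟨z, hZf.mem_toFinset.2 hz, hz'.le⟩
  have hZpos : 0 < Z.card := by
    obtain ⟨z, hz, -⟩ := hZ1 0 (by rw [norm_zero]; exact hB0.le)
    exact Finset.card_pos.2 ⟨z, hz⟩
  have hc : (0 : ℝ) < Z.card := by exact_mod_cast hZpos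
  choose m hm using fun z : ℂ => hc' Φ δ N k p S h z (r / 8) (7 * r / 8) (by positivity)
    (by linarith) (q / Z.card) (by positivity)
  refine ⟨Z.card * (∑ z ∈ Z, m z), ?_⟩
  have hall : ∀ᶠ i in atTop, ∀ z ∈ Z, meanW (S i) (wt (N i) (p i) (k i) (S i)) (fun A =>
      if SCross (fun j => mid (δ i) (run (p i) (k i) A j)) (len (p i) (k i) A) z (r / 8)
        (7 * r / 8) (m z) then 1 else 0) ≤ q / Z.card :=
    (Filter.eventually_all_finset Z).2 fun z _ => hm z
  filter_upwards [hall, hB] with i hi1 hi2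
  obtain ⟨hδ, hk0, hkN, hp, hS⟩ := h.1 i
  have key : ∀ A ⊆ edges (S i), (if Z.card * (∑ z ∈ Z, m z) <
        pc (fun j => mid (δ i) (run (p i) (k i) A j)) r (len (p i) (k i) A - 1) then (1 : ℝ)
        else 0) ≤ ∑ z ∈ Z, if SCross (fun j => mid (δ i) (run (p i) (k i) A j))
          (len (p i) (k i) A) z (r / 8) (7 * r / 8) (m z) then (1 : ℝ) else 0 := by
    intro A hA
    split_ifs with hc
    · obtain ⟨z, hz, t, ht, hj⟩ := excursions (Z := Z) (fun j _ => hZ1 _ (hi2 A hA j)) hc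
      have hpos := len_pos hp hS hkN hA
      have h7 : SCross (fun j => mid (δ i) (run (p i) (k i) A j)) (len (p i) (k i) A) z (r / 8)
          (7 * r / 8) (m z) := by
        refine ⟨t, ht, fun j hj' => ?_⟩
        have h8 : m z ≤ ∑ z ∈ Z, m z := Finset.single_le_sum (f := m) (fun _ _ => Nat.zero_le _) hz
        obtain ⟨g1, g2, g3⟩ := hj j (by omega)
        exact ⟨g1, g2, by omega⟩
      calc (1 : ℝ) = if SCross (fun j => mid (δ i) (run (p i) (k i) A j))
            (len (p i) (k i) A) z (r / 8) (7 * r / 8) (m z) then (1 : ℝ) else 0 := by rw [if_pos h7]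
        _ ≤ _ := Finset.single_le_sum (f := fun z => if SCross
            (fun j => mid (δ i) (run (p i) (k i) A j))
            (len (p i) (k i) A) z (r / 8) (7 * r / 8) (m z) then (1 : ℝ) else 0)
            (fun z _ => by
              show (0 : ℝ) ≤ if SCross (fun j => mid (δ i) (run (p i) (k i) A j))
                (len (p i) (k i) A) z (r / 8) (7 * r / 8) (m z) then (1 : ℝ) else 0
              split_ifs <;> norm_num) hz
    · exact Finset.sum_nonneg fun z _ => by split_ifs <;> norm_num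
  refine (meanW_mono (hw _ _ _ _) key).trans ?_
  rw [meanW_sum]
  refine (Finset.sum_le_card_nsmul _ _ _ fun z hz => hi1 z hz).trans ?_
  rw [nsmul_eq_mul, mul_div_cancel₀ _ hc.ne']

/-- **`Fjord.S_pieces` for the random-cluster measure.** -/
theorem s_piecesQ {q : ℝ} (hq : 0 < q) (h : SCrossW (wq q)) : S_piecesW (wq q) :=
  s_piecesW (Vale.Agent.P167.QE.wq_pos hq) h

theorem mean_eq_meanW (q : ℝ) {n : ℕ} (p : ZMod n → ℤ × ℤ) (k : ℕ) (S : Finset (ℤ × ℤ))
    (F : Finset (Sym2 (ℤ × ℤ)) → ℝ) : Final.mean q p k S F = meanW S (wq q n p k S) F := rfl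

end Vale.Agent.P167.QN
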